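import Vale.Agent.N140.Vel

/-!
# P140: integrable weak solutions of the transport equation satisfy the formula of Duhamel
-/

open MeasureTheory Set Filter
open scoped ENNReal Topology NNReal ContDiff

noncomputable section

namespace Vale.Agent.N140

open Vale.Agent.P140 Vale.Agent.P140.DL Vale.Agent.P140.NU

/-- smooth functions on the phase space with bounded velocities -/
def Sm (θ : T3 × V → ℝ) : Prop :=
  (ContDiff ℝ ∞ fun p : V × V => θ (toTorus p.1, p.2)) ∧ ∃ R : ℝ, ∀ p, R < ‖p.2‖ → θ p = 0

/-- an embedding of the phase space in a vector space -/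
def emb (p : T3 × V) : (Fin 3 → ℂ) × V := (fun i => (AddCircle.toCircle (p.1 i) : ℂ), p.2)

theorem emb_cont : Continuous emb := by
  refine Continuous.prodMk (continuous_pi fun i => ?_) continuous_snd
  exact continuous_subtype_val.comp (AddCircle.continuous_toCircle.comp
    ((continuous_apply i).comp continuous_fst))

theorem emb_inj : Function.Injective emb := by
  intro p q h
  refine Prod.ext (funext fun i => ?_) (Prod.ext_iff.1 h).2
  exact AddCircle.injective_toCircle one_ne_zero (Subtype.ext (congrFun (congrArg Prod.fst h) i))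

theorem emb_smooth : ContDiff ℝ ∞ fun p : V × V => emb (toTorus p.1, p.2) := by
  refine ContDiff.prodMk (contDiff_pi.2 fun i => ?_) contDiff_snd
  have e : (fun p : V × V => ((AddCircle.toCircle (toTorus p.1 i) : Circle) : ℂ)) =
      fun p : V × V => Complex.exp (Complex.ofRealCLM (2 * Real.pi / 1 * p.1 i) * Complex.I) := by
    funext p
    unfold toTorus
    rw [AddCircle.toCircle_apply_mk, Circle.coe_exp]
    rfl
  show ContDiff ℝ ∞ fun p : V × V => ((AddCircle.toCircle (toTorus p.1 i) : Circle) : ℂ)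
  rw [e]
  refine (Complex.contDiff_exp (𝕜 := ℝ)).comp (ContDiff.mul ?_ contDiff_const)
  exact Complex.ofRealCLM.contDiff.comp (by fun_prop)

/-- smooth functions determine integrable functions -/
theorem ae_zero_of_sm {k : T3 × V → ℝ} (hk : Integrable k)
    (h : ∀ θ, Sm θ → ∫ p, k p * θ p = 0) : ∀ᵐ p, k p = 0 := by
  have he : MeasurableEmbedding emb := emb_cont.measurableEmbedding emb_inj
  let k' : (Fin 3 → ℂ) × V → ℝ := Function.extend emb k 0
  have hk' : ∀ p, k' (emb p) = k p := fun p => emb_inj.extend_apply _ _ _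
  have hi : Integrable k' (Measure.map emb volume) := by
    rw [he.integrable_map_iff]
    exact hk.congr (Eventually.of_forall fun p => (hk' p).symm)
  have h1 := ae_eq_zero_of_integral_contDiff_smul_eq_zero hi.locallyIntegrable (by
    intro g hg hc
    rw [he.integral_map]
    simp only [hk', smul_eq_mul, mul_comm (g _)]
    refine h (fun p => g (emb p)) ⟨hg.comp emb_smooth, ?_⟩
    obtain ⟨R, hR⟩ := (hc.isCompact.image continuous_snd).isBounded.exists_norm_le
    refine ⟨R, fun p hp => ?_⟩
    by_contra h0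
    exact absurd (hR p.2 ⟨emb p, subset_tsupport _ h0, rfl⟩) (not_le.mpr hp))
  rw [he.ae_map_iff] at h1
  filter_upwards [h1] with p hp
  rwa [hk'] at hp

theorem Sm.isTest {θ : T3 × V → ℝ} (hθ : Sm θ) {χ : ℝ → ℝ} (hχ : ContDiff ℝ ∞ χ)
    (hc : HasCompactSupport χ) : IsTest fun s x v => χ s * θ (flow (-s) (x, v)) := by
  constructor
  · have e : (fun p : ℝ × V × V => χ p.1 * θ (flow (-p.1) (toTorus p.2.1, p.2.2))) =
        fun p : ℝ × V × V => χ p.1 * (fun z : V × V => θ (toTorus z.1, z.2))
          (p.2.1 + (-p.1) • p.2.2, p.2.2) := by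
      funext p
      simp only [flow, toTorus_add]
    rw [e]
    exact (hχ.comp contDiff_fst).mul (hθ.1.comp (by fun_prop))
  · obtain ⟨R, hR⟩ := hθ.2
    obtain ⟨R', hR'⟩ := hc.isCompact.isBounded.exists_norm_le
    refine ⟨max R R', fun t x v h => ?_⟩
    rcases h with h | h
    · have : χ t = 0 := by
        by_contra h0
        have h1 := hR' t (subset_tsupport _ h0)
        rw [Real.norm_eq_abs] at h1
        linarith [le_max_right R R']
      rw [this, zero_mul]
    · rw [hR (flow (-t) (x, v)) ((le_max_left R R').trans_lt h), mul_zero]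

theorem Sm.cont {θ : T3 × V → ℝ} (hθ : Sm θ) : Continuous θ := by
  have h := s4_cont (f := fun q : ℝ × T3 × V => θ q.2)
    (hθ.1.continuous.comp (f := fun p : ℝ × V × V => p.2) continuous_snd)
  exact h.comp (f := fun p : T3 × V => ((0 : ℝ), p)) (by fun_prop)

theorem Sm.bdd {θ : T3 × V → ℝ} (hθ : Sm θ) : ∃ C, ∀ p, |θ p| ≤ C := by
  obtain ⟨R, hR⟩ := hθ.2
  have hK : IsCompact ((univ : Set T3) ×ˢ Metric.closedBall (0 : V) R) :=
    isCompact_univ.prod (isCompact_closedBall 0 R)
  obtain ⟨C, hC⟩ := hK.exists_bound_of_continuousOn hθ.cont.continuousOn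
  refine ⟨max C 0, fun p => ?_⟩
  by_cases hp : R < ‖p.2‖
  · rw [hR p hp, abs_zero]
    exact le_max_right _ _
  · exact (hC p ⟨mem_univ _, by simpa using hp⟩).trans (le_max_left _ _)

theorem Sm.unif {θ : T3 × V → ℝ} (hθ : Sm θ) (s : ℝ) {ε : ℝ} (hε : 0 < ε) :
    ∀ᶠ r in 𝓝 s, ∀ p, |θ (flow (-r) p) - θ (flow (-s) p)| ≤ ε := by
  obtain ⟨R, hR⟩ := hθ.2
  have hK : IsCompact ((univ : Set T3) ×ˢ Metric.closedBall (0 : V) R) :=
    isCompact_univ.prod (isCompact_closedBall 0 R)
  have hc : Continuous fun q : ℝ × T3 × V => |θ (flow (-q.1) q.2) - θ (flow (-s) q.2)| := by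
    have h1 : Continuous fun q : ℝ × T3 × V => flow (-q.1) q.2 :=
      s1_continuous_flow.comp (continuous_fst.neg.prodMk continuous_snd)
    have h2 : Continuous fun q : ℝ × T3 × V => flow (-s) q.2 :=
      s1_continuous_flow.comp (continuous_const.prodMk continuous_snd)
    exact ((hθ.cont.comp h1).sub (hθ.cont.comp h2)).abs
  have h := hK.eventually_forall_of_forall_eventually (x₀ := s)
    (P := fun r p => |θ (flow (-r) p) - θ (flow (-s) p)| < ε) (fun p _ => by
      refine (hc.continuousAt (x := (s, p))).eventually_lt continuousAt_const ?_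
      simpa using hε)
  filter_upwards [h] with r hr p
  by_cases hp : R < ‖p.2‖
  · rw [hR (flow (-r) p) hp, hR (flow (-s) p) hp, sub_zero, abs_zero]
    exact hε.le
  · exact (hr p ⟨mem_univ _, by simpa using hp⟩).le

theorem transport_test (θ : T3 × V → ℝ) (χ : ℝ → ℝ) (s : ℝ) (x : T3)
    (v : V) : transport (fun t y => χ t * θ (flow (-t) (y, v))) s x v =
      deriv χ s * θ (flow (-s) (x, v)) := by
  unfold transport
  have e : (fun r : ℝ => χ (s + r) * θ (flow (-(s + r)) (x + toTorus (r • v), v))) =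
      fun r : ℝ => χ (s + r) * θ (flow (-s) (x, v)) := by
    funext r
    have : ((x + toTorus (r • v), v) : T3 × V) = flow r (x, v) := rfl
    rw [this, s1_flow_add]
    congr 3
    ring
  rw [e, deriv_mul_const_field, deriv_comp_const_add, add_zero]

/-- a continuous function with an integrable weak derivative is a primitive -/
theorem primitive_of_weak {T : ℝ} (hT : 0 < T) {g h : ℝ → ℝ} {c : ℝ}
    (hg : ContinuousOn g (Icc 0 T)) (hh : IntegrableOn h (Ioc 0 T))
    (hw : ∀ χ : ℝ → ℝ, ContDiff ℝ ∞ χ → HasCompactSupport χ → (∀ s, T ≤ s → χ s = 0) →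
      (∫ s in Ioc 0 T, g s * deriv χ s) + (∫ s in Ioc 0 T, h s * χ s) + c * χ 0 = 0) :
    ∀ s ∈ Icc 0 T, g s = c + ∫ r in Ioc 0 s, h r := by
  have hI : IntegrableOn h (Icc 0 T) := by rwa [integrableOn_Icc_iff_integrableOn_Ioc]
  have hP : ContinuousOn (fun s => c + ∫ r in Ioc 0 s, h r) (Icc 0 T) :=
    continuousOn_const.add (intervalIntegral.continuousOn_primitive hI)
  have hk : ContinuousOn (fun s => g s - (c + ∫ r in Ioc 0 s, h r)) (Icc 0 T) := hg.sub hP
  have hint : IntervalIntegrable h volume 0 T := by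
    rwa [intervalIntegrable_iff_integrableOn_Ioc_of_le hT.le]
  have h1 := (isOpen_Ioo (a := (0 : ℝ)) (b := T)).ae_eq_zero_of_integral_contDiff_smul_eq_zero
    (μ := volume) (f := fun s => g s - (c + ∫ r in Ioc 0 s, h r))
    ((hk.mono Ioo_subset_Icc_self).locallyIntegrableOn measurableSet_Ioo) (by
      intro ψ hψ _ hsub
      have hψ0 : ∀ s, s ∉ Ioo 0 T → ψ s = 0 := fun s hs =>
        image_eq_zero_of_notMem_tsupport fun h => hs (hsub h)
      let b : ContDiffBump (0 : ℝ) := ⟨T + 1, T + 2, by linarith, by linarith⟩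
      let P : ℝ → ℝ := fun s => ∫ r in T..s, ψ r
      have hPd : ∀ s, HasDerivAt P (ψ s) s := fun s =>
        (hψ.continuous.integral_hasStrictDerivAt T s).hasDerivAt
      have hPs : ContDiff ℝ ∞ P := by
        rw [contDiff_infty_iff_deriv]
        refine ⟨fun s => (hPd s).differentiableAt, ?_⟩
        rwa [show deriv P = ψ from funext fun s => (hPd s).deriv]
      have hχ : ContDiff ℝ ∞ fun s => b s * P s := b.contDiff.mul hPs
      have hχT : ∀ s, T ≤ s → b s * P s = 0 := by
        intro s hs
        have : P s = 0 := by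
          show ∫ r in T..s, ψ r = 0
          rw [intervalIntegral.integral_congr (g := fun _ => 0), intervalIntegral.integral_zero]
          intro r hr
          rw [uIcc_of_le hs] at hr
          exact hψ0 r fun h => absurd h.2 (not_lt.2 hr.1)
        rw [this, mul_zero]
      have hd : ∀ s ∈ Icc 0 T, HasDerivAt (fun s => b s * P s) (ψ s) s := by
        intro s hs
        refine (hPd s).congr_of_eventuallyEq ?_
        have : Metric.ball (0 : ℝ) (T + 1) ∈ 𝓝 s := Metric.isOpen_ball.mem_nhds (by
          rw [mem_ball_zero_iff, Real.norm_eq_abs, abs_of_nonneg hs.1]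
          linarith [hs.2])
        filter_upwards [this] with r hr
        rw [b.one_of_mem_closedBall (Metric.ball_subset_closedBall hr), one_mul]
      have h2 := hw _ hχ b.hasCompactSupport.mul_right hχT
      have h3 := ibp_primitive (r := h) (z := fun s => b s * P s) (θ := ψ) hT.le hint
        (hχ.of_le (by exact_mod_cast le_top)).contDiffOn hd (hχT T le_rfl) c
      rw [intervalIntegral.integral_of_le hT.le, intervalIntegral.integral_of_le hT.le] at h3
      have e1 : ∫ s in Ioc 0 T, g s * deriv (fun s => b s * P s) s = ∫ s in Ioc 0 T, ψ s * g s :=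
        setIntegral_congr_fun measurableSet_Ioc fun s hs => by
          rw [(hd s (Ioc_subset_Icc_self hs)).deriv, mul_comm]
      have e2 : ∫ s in Ioc 0 T, ψ s * (c + ∫ r in (0 : ℝ)..s, h r) =
          ∫ s in Ioc 0 T, ψ s * (c + ∫ r in Ioc 0 s, h r) :=
        setIntegral_congr_fun measurableSet_Ioc fun s hs => by
          rw [intervalIntegral.integral_of_le hs.1.le]
      have i1 : IntegrableOn (fun s => ψ s * g s) (Ioc 0 T) :=
        ((hψ.continuous.continuousOn.mul hg).integrableOn_Icc).mono_set Ioc_subset_Icc_self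
      have i2 : IntegrableOn (fun s => ψ s * (c + ∫ r in Ioc 0 s, h r)) (Ioc 0 T) :=
        ((hψ.continuous.continuousOn.mul hP).integrableOn_Icc).mono_set Ioc_subset_Icc_self
      rw [← setIntegral_eq_integral_of_forall_compl_eq_zero (s := Ioc 0 T) (fun s hs => by
        rw [hψ0 s fun h => hs (Ioo_subset_Ioc_self h), zero_smul])]
      simp only [smul_eq_mul, mul_sub]
      rw [integral_sub i1 i2]
      rw [e1] at h2
      rw [e2] at h3
      linarith)
  have h2 : (fun s => g s - (c + ∫ r in Ioc 0 s, h r)) =ᵐ[volume.restrict (Icc 0 T)]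
      fun _ => 0 := by
    rw [← restrict_Ioo_eq_restrict_Icc]
    exact (ae_restrict_iff' measurableSet_Ioo).2 h1
  intro s hs
  exact sub_eq_zero.1 (Measure.eqOn_Icc_of_ae_eq volume hT.ne h2 hk continuousOn_const hs)

theorem int_flow {μ : Measure ℝ} [SFinite μ] {u : ℝ × T3 × V → ℝ}
    (hu : Integrable u (μ.prod volume)) : Integrable (fun q => u (stFlow q)) (μ.prod volume) :=
  (measurePreserving_stFlow μ).integrable_comp_emb measurableEmbedding_stFlow |>.mpr hu

theorem int_fl (t : ℝ) (f : T3 × V → ℝ) : ∫ p, f (flow t p) = ∫ p, f p :=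
  (measurePreserving_flow t).integral_comp (measurableEmbedding_flow t) f

theorem pair_flow (f θ : T3 × V → ℝ) (s : ℝ) :
    ∫ p, f p * θ (flow (-s) p) = ∫ p, f (flow s p) * θ p := by
  rw [← int_fl s fun p => f p * θ (flow (-s) p)]
  simp only [flow_neg_flow]

/-- the formula of Duhamel -/
theorem duhamel {T : ℝ} (hT : 0 < T) {u r : ℝ × T3 × V → ℝ} {u0 : T3 × V → ℝ}
    (iu : Integrable u ((volume.restrict (Ioc 0 T)).prod volume))
    (ir : Integrable r ((volume.restrict (Ioc 0 T)).prod volume)) (iu0 : Integrable u0)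
    (ius : ∀ s ∈ Icc 0 T, Integrable fun p => u (s, p)) {C : ℝ}
    (bd : ∀ s ∈ Icc 0 T, ∫ p, |u (s, p)| ≤ C)
    (wc : ∀ θ : T3 × V → ℝ, Measurable θ → (∃ C, ∀ p, |θ p| ≤ C) →
      ContinuousOn (fun s => ∫ p, u (s, p) * θ p) (Icc 0 T))
    (weak : ∀ φ : ℝ → T3 → V → ℝ, IsTest φ → (∀ s x v, T ≤ s → φ s x v = 0) →
      (∫ q : ℝ × T3 × V, u q * transport (fun t x => φ t x q.2.2) q.1 q.2.1 q.2.2
        ∂((volume.restrict (Ioc 0 T)).prod volume)) +
      (∫ q : ℝ × T3 × V, r q * φ q.1 q.2.1 q.2.2 ∂((volume.restrict (Ioc 0 T)).prod volume)) +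
      ∫ p : T3 × V, u0 p * φ 0 p.1 p.2 = 0) :
    ∀ s ∈ Icc 0 T, ∀ᵐ p : T3 × V,
      u (stFlow (s, p)) = u0 p + ∫ τ in Ioc 0 s, r (stFlow (τ, p)) := by
  have key : ∀ θ, Sm θ → ∀ s ∈ Icc 0 T, ∫ p, u (s, p) * θ (flow (-s) p) =
      (∫ p, u0 p * θ p) + ∫ τ in Ioc 0 s, ∫ p, r (τ, p) * θ (flow (-τ) p) := by
    intro θ hθ
    obtain ⟨B, hB⟩ := hθ.bdd
    have cθ : Continuous fun q : ℝ × T3 × V => θ (flow (-q.1) q.2) :=
      hθ.cont.comp (s1_continuous_flow.comp (continuous_fst.neg.prodMk continuous_snd))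
    have mθ : ∀ s, Measurable fun p => θ (flow (-s) p) := fun s =>
      hθ.cont.measurable.comp (measurable_flow _)
    have j1 : Integrable (fun q : ℝ × T3 × V => u q * θ (flow (-q.1) q.2))
        ((volume.restrict (Ioc 0 T)).prod volume) :=
      iu.mul_bdd (c := B) cθ.aestronglyMeasurable (Eventually.of_forall fun q => hB _)
    have j2 : Integrable (fun q : ℝ × T3 × V => r q * θ (flow (-q.1) q.2))
        ((volume.restrict (Ioc 0 T)).prod volume) :=
      ir.mul_bdd (c := B) cθ.aestronglyMeasurable (Eventually.of_forall fun q => hB _)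
    refine primitive_of_weak hT ?_ j2.integral_prod_left ?_
    · intro s hs
      have h1 := wc _ (mθ s) ⟨B, fun p => hB _⟩ s hs
      have h2 : Tendsto (fun t => (∫ p, u (t, p) * θ (flow (-t) p)) -
          ∫ p, u (t, p) * θ (flow (-s) p)) (𝓝[Icc 0 T] s) (𝓝 0) := by
        rw [Metric.tendsto_nhds]
        intro ε hε
        have hC : 0 ≤ C := (integral_nonneg fun p => abs_nonneg _).trans (bd s hs)
        filter_upwards [self_mem_nhdsWithin, mem_nhdsWithin_of_mem_nhds
          (hθ.unif s (ε := ε / (C + 1)) (by positivity))] with t ht hu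
        have k1 : ∀ a, Integrable fun p => u (t, p) * θ (flow (-a) p) := fun a =>
          (ius t ht).mul_bdd (c := B) (mθ a).aestronglyMeasurable
            (Eventually.of_forall fun q => hB _)
        rw [Real.dist_eq, sub_zero, ← integral_sub (k1 t) (k1 s)]
        refine lt_of_le_of_lt (abs_integral_le_integral_abs.trans (integral_mono
          ((k1 t).sub (k1 s)).abs ((ius t ht).abs.mul_const (ε / (C + 1))) fun p => ?_)) ?_
        · simp only
          rw [← mul_sub, abs_mul]
          exact mul_le_mul_of_nonneg_left (hu p) (abs_nonneg _)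
        · rw [integral_mul_const]
          calc _ ≤ C * (ε / (C + 1)) := mul_le_mul_of_nonneg_right (bd t ht) (by positivity)
            _ < (C + 1) * (ε / (C + 1)) := mul_lt_mul_of_pos_right (by linarith) (by positivity)
            _ = ε := by field_simp
      have h3 := h2.add h1
      simp only [sub_add_cancel, zero_add] at h3
      exact h3
    · intro χ hχ hc hχT
      have h1 := weak _ (hθ.isTest hχ hc) (fun s x v hs => by rw [hχT s hs, zero_mul])
      obtain ⟨A, hA⟩ := hc.exists_bound_of_continuous hχ.continuous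
      have cχ' : Continuous (deriv χ) := hχ.continuous_deriv (by exact_mod_cast le_top)
      obtain ⟨A', hA'⟩ := hc.deriv.exists_bound_of_continuous cχ'
      have l1 : Integrable (fun q : ℝ × T3 × V => u q * θ (flow (-q.1) q.2) * deriv χ q.1)
          ((volume.restrict (Ioc 0 T)).prod volume) :=
        j1.mul_bdd (c := A') (cχ'.comp continuous_fst).aestronglyMeasurable
          (Eventually.of_forall fun q => hA' _)
      have l2 : Integrable (fun q : ℝ × T3 × V => r q * θ (flow (-q.1) q.2) * χ q.1)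
          ((volume.restrict (Ioc 0 T)).prod volume) :=
        j2.mul_bdd (c := A) (hχ.continuous.comp continuous_fst).aestronglyMeasurable
          (Eventually.of_forall fun q => hA _)
      have e1 := integral_prod _ l1
      have e2 := integral_prod _ l2
      simp only [integral_mul_const] at e1 e2
      rw [← e1, ← e2, ← integral_mul_const]
      refine Eq.trans ?_ h1
      congr 1
      · congr 1
        · refine integral_congr_ae (Eventually.of_forall fun q => ?_)
          simp only
          rw [transport_test θ χ]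
          ring
        · refine integral_congr_ae (Eventually.of_forall fun q => ?_)
          simp only
          ring
      · refine integral_congr_ae (Eventually.of_forall fun p => ?_)
        simp only [neg_zero, s1_flow_zero]
        ring
  intro s hs
  have irs : Integrable (fun q => r (stFlow q)) ((volume.restrict (Ioc 0 s)).prod volume) :=
    (int_flow ir).mono_measure (Measure.prod_mono
      (Measure.restrict_mono (Ioc_subset_Ioc_right hs.2) le_rfl) le_rfl)
  have a1 : Integrable fun p : T3 × V => u (stFlow (s, p)) :=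
    ((measurePreserving_flow s).integrable_comp_emb (measurableEmbedding_flow s)).mpr (ius s hs)
  have a2 : Integrable fun p : T3 × V => ∫ τ in Ioc 0 s, r (stFlow (τ, p)) :=
    irs.integral_prod_right
  have h := ae_zero_of_sm (a1.sub (iu0.add a2)) (by
    intro θ hθ
    obtain ⟨B, hB⟩ := hθ.bdd
    have mul : ∀ {f : T3 × V → ℝ}, Integrable f → Integrable fun p => f p * θ p := fun hf =>
      hf.mul_bdd (c := B) hθ.cont.aestronglyMeasurable (Eventually.of_forall fun q => hB _)
    have h1 := key θ hθ s hs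
    simp only [pair_flow] at h1
    have l : Integrable (fun q : ℝ × T3 × V => r (stFlow q) * θ q.2)
        ((volume.restrict (Ioc 0 s)).prod volume) :=
      irs.mul_bdd (c := B) (hθ.cont.comp continuous_snd).aestronglyMeasurable
        (Eventually.of_forall fun q => hB _)
    have e : ∫ τ in Ioc 0 s, ∫ p, r (τ, flow τ p) * θ p =
        ∫ p, (∫ τ in Ioc 0 s, r (stFlow (τ, p))) * θ p := by
      refine ((integral_prod _ l).symm.trans (integral_prod_symm _ l)).trans ?_
      simp only [integral_mul_const]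
    simp only [Pi.sub_apply, Pi.add_apply, sub_mul, add_mul]
    have a3 : Integrable fun p => u0 p * θ p + (∫ τ in Ioc 0 s, r (stFlow (τ, p))) * θ p :=
      (mul iu0).add (mul a2)
    rw [integral_sub (mul a1) a3, integral_add (mul iu0) (mul a2), ← e, ← h1]
    exact sub_self _)
  filter_upwards [h] with p hp
  exact sub_eq_zero.1 hp

/-- continuity in the norm of `L¹` -/
theorem strong_cont {T : ℝ} {u r : ℝ × T3 × V → ℝ} {u0 : T3 × V → ℝ}
    (ir : Integrable r ((volume.restrict (Ioc 0 T)).prod volume))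
    (ius : ∀ s ∈ Icc 0 T, Integrable fun p => u (s, p))
    (h : ∀ s ∈ Icc 0 T, ∀ᵐ p : T3 × V,
      u (stFlow (s, p)) = u0 p + ∫ τ in Ioc 0 s, r (stFlow (τ, p))) {s : ℝ} (hs : s ∈ Icc 0 T) :
    Tendsto (fun t => ∫ p, |u (t, p) - u (s, p)|) (𝓝[Icc 0 T] s) (𝓝 0) := by
  have ia := (int_flow ir).abs
  set N : ℝ → ℝ := fun τ => ∫ p, |r (stFlow (τ, p))| with hN
  have iN : IntegrableOn N (Ioc 0 T) := ia.integral_prod_left
  have hP : ContinuousOn (fun t => ∫ τ in Ioc 0 t, N τ) (Icc 0 T) :=
    intervalIntegral.continuousOn_primitive (by rwa [integrableOn_Icc_iff_integrableOn_Ioc])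
  have fl : ∀ a ∈ Icc 0 T, ∀ b, Integrable fun p : T3 × V => u (a, flow b p) := fun a ha b =>
    ((measurePreserving_flow b).integrable_comp_emb (measurableEmbedding_flow b)).mpr (ius a ha)
  have step : ∀ a ∈ Icc 0 T, ∀ b ∈ Icc 0 T, a ≤ b → ∫ p, |u (b, flow b p) - u (a, flow a p)| ≤
      (∫ τ in Ioc 0 b, N τ) - ∫ τ in Ioc 0 a, N τ := by
    intro a ha b hb hab
    have hsub : Ioc a b ⊆ Ioc 0 T := Ioc_subset_Ioc ha.1 hb.2
    have hu : Ioc 0 a ∪ Ioc a b = Ioc 0 b := Ioc_union_Ioc_eq_Ioc ha.1 hab
    have hd : Disjoint (Ioc 0 a) (Ioc a b) := Ioc_disjoint_Ioc_of_le le_rfl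
    have iab : Integrable (fun q => |r (stFlow q)|) ((volume.restrict (Ioc a b)).prod volume) :=
      ia.mono_measure (Measure.prod_mono (Measure.restrict_mono hsub le_rfl) le_rfl)
    rw [← hu, setIntegral_union hd measurableSet_Ioc (iN.mono_set (Ioc_subset_Ioc_right ha.2))
      (iN.mono_set hsub), add_sub_cancel_left, hN,
      (integral_prod _ iab).symm.trans (integral_prod_symm _ iab)]
    refine integral_mono_ae ((fl b hb b).sub (fl a ha a)).abs iab.integral_prod_right ?_
    filter_upwards [h a ha, h b hb, (int_flow ir).prod_left_ae] with p h1 h2 h3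
    have h3' : IntegrableOn (fun τ => r (stFlow (τ, p))) (Ioc 0 T) := h3
    have h1' : u (a, flow a p) = _ := h1
    have h2' : u (b, flow b p) = _ := h2
    rw [h1', h2', ← hu, setIntegral_union hd measurableSet_Ioc
      (h3'.mono_set (Ioc_subset_Ioc_right ha.2)) (h3'.mono_set hsub), add_sub_add_left_eq_sub,
      add_sub_cancel_left]
    exact abs_integral_le_integral_abs
  have t1 : Tendsto (fun t => |(∫ τ in Ioc 0 t, N τ) - ∫ τ in Ioc 0 s, N τ|) (𝓝[Icc 0 T] s)
      (𝓝 0) := by
    have := ((hP s hs).tendsto.sub_const (∫ τ in Ioc 0 s, N τ)).abs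
    rwa [sub_self, abs_zero] at this
  have t2 : Tendsto (fun t => ∫ p, |u (s, flow (t - s) p) - u (s, p)|) (𝓝[Icc 0 T] s) (𝓝 0) := by
    have h1 : Tendsto (fun t : ℝ => t - s) (𝓝[Icc 0 T] s) (𝓝 0) := by
      have := (tendsto_id (x := 𝓝 s)).sub_const s
      rw [sub_self] at this
      exact this.mono_left nhdsWithin_le_nhds
    exact (s1_flow_cont (ius s hs)).comp h1
  have t3 := t1.add t2
  rw [add_zero] at t3
  refine squeeze_zero' (Eventually.of_forall fun t => integral_nonneg fun p => abs_nonneg _) ?_ t3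
  filter_upwards [self_mem_nhdsWithin] with t ht
  have e1 : ∫ p, |u (t, p) - u (s, p)| = ∫ p, |u (t, flow t p) - u (s, flow t p)| :=
    (int_fl t fun p => |u (t, p) - u (s, p)|).symm
  have e2 : ∫ p, |u (s, flow (t - s) p) - u (s, p)| = ∫ p, |u (s, flow t p) - u (s, flow s p)| := by
    rw [← int_fl s fun p => |u (s, flow (t - s) p) - u (s, p)|]
    simp only [s1_flow_add, sub_add_cancel]
  have e3 : ∫ p, |u (t, flow t p) - u (s, flow s p)| ≤
      |(∫ τ in Ioc 0 t, N τ) - ∫ τ in Ioc 0 s, N τ| := by
    rcases le_total s t with hst | hst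
    · exact (step s hs t ht hst).trans (le_abs_self _)
    · rw [abs_sub_comm]
      simp only [abs_sub_comm (u (t, _))]
      exact (step t ht s hs hst).trans (le_abs_self _)
  rw [e1, e2]
  refine le_trans ?_ (add_le_add e3 le_rfl)
  have k1 := ((fl t ht t).sub (fl s hs s)).abs
  have k2 := ((fl s hs t).sub (fl s hs s)).abs
  refine le_trans (integral_mono ((fl t ht t).sub (fl s hs t)).abs (k1.add k2) fun p => ?_)
    (le_of_eq (integral_add k1 k2))
  simp only [Pi.add_apply, Pi.sub_apply]
  rw [abs_sub_comm (u (s, flow t p))]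
  exact abs_sub_le _ _ _

end Vale.Agent.N140
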