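import Vale.Agent.N140.Uniq
import Vale.Agent.N140.Duh
import Vale.Agent.N140.Defs
import Vale.Agent.P140W36.Fin

/-!
# P140: the critical bound decides between uniqueness and nonuniqueness
-/

open MeasureTheory Set Filter
open scoped ENNReal Topology NNReal ContDiff

noncomputable section

namespace Vale.Agent.N140

open Vale.Agent.P140 Vale.Agent.P140.DL Vale.Agent.P140.NU

theorem sig_eq : (Measure.euclideanHausdorffMeasure 2).restrict (Metric.sphere (0 : V) 1) =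
    P140W36.s0 :=
  (P140W36.final.2.2 _ Vale.Agent.P127W36.isSurfaceMeasure_toSphere).1.symm

theorem isSol_iff {F0 : T3 × V → ℝ} {F : ℝ → T3 × V → ℝ} :
    D.IsSol F0 F ↔ P140W36.IsSol P140W36.s0 F0 F := by
  rw [← sig_eq]
  have k : ∀ u r u0, D.IsTransport u r u0 ↔ P140W36.IsTransport u r u0 := fun u r u0 =>
    and_congr Iff.rfl (and_congr Iff.rfl (and_congr Iff.rfl (forall_congr' fun φ => and_imp)))
  exact and_congr Iff.rfl (and_congr Iff.rfl (and_congr Iff.rfl (and_congr (and_congr Iff.rfl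
    (and_congr Iff.rfl (forall_congr' fun β => imp_congr_right fun _ => imp_congr_right fun _ =>
      imp_congr_right fun _ => k _ _ _))) Iff.rfl)))

theorem gain_eq {f : T3 × V → ℝ} (hf : Measurable f) (p : T3 × V) :
    D.gain f p = gain (fun w => f (p.1, w)) p.2 := by
  have h := (P140W36.coll62.2.1 f hf).1 p
  rw [stt_gain, ← sig_eq] at h
  exact h

theorem loss_eq {f : T3 × V → ℝ} (hf : Measurable f) (p : T3 × V) :
    D.loss f p = loss (fun w => f (p.1, w)) p.2 := by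
  have h := (P140W36.coll62.2.1 f hf).2.1 p
  rw [stt_loss, ← sig_eq] at h
  exact h

theorem slab_eq (t : ℝ) : (volume : Measure (ℝ × T3 × V)).restrict (D.slab D.Om (Icc 0 t)) =
    (volume.restrict (Ioc 0 t)).prod volume := by
  rw [restrict_Ioc_eq_restrict_Icc]
  exact P140W36.restrict_slab (Y := T3 × V) (Icc 0 t)

theorem lint_iter {W : ℝ × T3 × V → ℝ≥0∞} (hW : Measurable W) (t : ℝ) :
    ∫⁻ q, W q ∂((volume.restrict (Ioc 0 t)).prod volume) =
      ∫⁻ s in Ioc 0 t, ∫⁻ x, ∫⁻ v, W (s, x, v) := by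
  rw [lintegral_prod _ hW.aemeasurable]
  refine lintegral_congr fun s => ?_
  have hs : Measurable fun p : T3 × V => W (s, p) := hW.comp measurable_prodMk_left
  rw [Measure.volume_eq_prod, lintegral_prod _ hs.aemeasurable]

theorem loss_fin {F : ℝ → T3 → V → ℝ} (hm : Measurable fun p : ℝ × T3 × V => F p.1 p.2.1 p.2.2)
    (h0 : ∀ t x v, 0 ≤ F t x v) {a : ℝ → ℝ} {c t E : ℝ} (ht : 0 ≤ t) (hc0 : 0 ≤ c)
    (ha : IntegrableOn a (Ioc 0 t)) (hc : CritT a c t F)
    (hE : ∀ s ∈ Ioc 0 t, ∫⁻ x, m2 (F s x) ≤ ENNReal.ofReal E) :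
    ∫⁻ s in Ioc 0 t, ∫⁻ x, ∫⁻ v, loss (F s x) v < ⊤ := by
  refine lt_of_le_of_lt (lintegral_mono fun s => ?_) (lint_pq_fin (p := fun s x => m2 (F s x))
    (q := fun s x => m3 (F s x)) ht hc0 (fun s x => m2_le_m3 (h0 s x)) hc ha hE)
  simp only
  rw [← lintegral_const_mul' _ _ (by norm_num)]
  exact lintegral_mono fun x => lint_loss_le (measurable_slice hm s x) (h0 s x)

theorem dom {α : Type*} [MeasurableSpace α] {μ : Measure α} {f : α → ℝ} {a : ℕ → α → ℝ}
    (hf : Integrable f μ) (ha : ∀ n, Measurable (a n)) (h1 : ∀ n x, |a n x| ≤ 1)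
    (h2 : ∀ x, Tendsto (fun n => a n x) atTop (𝓝 1)) :
    Tendsto (fun n => ∫ x, a n x * f x ∂μ) atTop (𝓝 (∫ x, f x ∂μ)) := by
  refine tendsto_integral_of_dominated_convergence (fun x => |f x|)
    (fun n => (ha n).aestronglyMeasurable.mul hf.1) hf.abs (fun n => Eventually.of_forall fun x => ?_)
    (Eventually.of_forall fun x => ?_)
  · rw [Real.norm_eq_abs, abs_mul]
    exact mul_le_of_le_one_left (abs_nonneg _) (h1 n x)
  · simpa using (h2 x).mul_const (f x)

/-- the factor of the renormalization -/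
def fac (n : ℕ) (z : ℝ) : ℝ := 1 / (1 + z / (n + 1))

theorem fac_pos (n : ℕ) {z : ℝ} (hz : 0 ≤ z) : 0 < fac n z := by
  unfold fac
  positivity

theorem fac_le (n : ℕ) {z : ℝ} (hz : 0 ≤ z) : fac n z ≤ 1 := by
  unfold fac
  rw [div_le_one (by positivity)]
  have : 0 ≤ z / (n + 1) := by positivity
  linarith

theorem fac_lim (z : ℝ) : Tendsto (fun n => fac n z) atTop (𝓝 1) := by
  have h1 : Tendsto (fun n : ℕ => z / ((n : ℝ) + 1)) atTop (𝓝 0) :=
    tendsto_const_nhds.div_atTop (tendsto_atTop_add_const_right _ 1 tendsto_natCast_atTop_atTop)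
  have h2 := (tendsto_const_nhds (x := (1 : ℝ))).div (h1.const_add 1) (by norm_num)
  rw [add_zero, div_one] at h2
  exact h2

theorem fac_meas (n : ℕ) : Measurable (fac n) := by
  unfold fac
  fun_prop

theorem fac_deriv (n : ℕ) {z : ℝ} (hz : 0 ≤ z) :
    derivWithin (fun z => z * fac n z) (Ici 0) z = fac n z * fac n z := by
  have hn : (0 : ℝ) < n + 1 := by positivity
  have h0 : 1 + z / (n + 1) ≠ 0 := by positivity
  have h1 : HasDerivAt (fun z : ℝ => 1 + z / (n + 1)) (1 / (n + 1)) z :=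
    ((hasDerivAt_id z).div_const _).const_add 1
  have h2 := (hasDerivAt_id z).mul ((hasDerivAt_const z (1 : ℝ)).div h1 h0)
  refine (h2.hasDerivWithinAt.derivWithin (uniqueDiffOn_Ici 0 z hz)).trans ?_
  simp only [fac, id, Pi.div_apply]
  field_simp
  ring

theorem fac_smooth (n : ℕ) : ContDiffOn ℝ 1 (fun z => z * fac n z) (Ici 0) := by
  refine contDiffOn_id.mul (contDiffOn_const.div (by fun_prop) fun z hz => ?_)
  have : (0 : ℝ) ≤ z := hz
  positivity

theorem fac_bound (n : ℕ) {z : ℝ} (hz : 0 ≤ z) :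
    |derivWithin (fun z => z * fac n z) (Ici 0) z| ≤ (n + 1) / (1 + z) := by
  have h1 := fac_pos n hz
  rw [fac_deriv n hz, abs_of_nonneg (by positivity)]
  refine (mul_le_of_le_one_left h1.le (fac_le n hz)).trans ?_
  unfold fac
  rw [div_le_div_iff₀ (by positivity) (by positivity)]
  have hn : (0 : ℝ) ≤ n := Nat.cast_nonneg n
  field_simp
  linarith

/-- the curried form -/
def cur (F : ℝ → T3 × V → ℝ) (s : ℝ) (x : T3) (v : V) : ℝ := F s (x, v)

section

variable {F0 : T3 × V → ℝ} {F : ℝ → T3 × V → ℝ} {c t : ℝ}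

theorem gain_cur (h : D.IsSol F0 F) (s : ℝ) (p : T3 × V) :
    D.gain (F s) p = gain (cur F s p.1) p.2 := gain_eq (h.1.comp measurable_prodMk_left) p

theorem loss_cur (h : D.IsSol F0 F) (s : ℝ) (p : T3 × V) :
    D.loss (F s) p = loss (cur F s p.1) p.2 := loss_eq (h.1.comp measurable_prodMk_left) p

theorem meas_cur (h : D.IsSol F0 F) :
    Measurable fun p : ℝ × T3 × V => cur F p.1 p.2.1 p.2.2 := h.1

theorem crit_cur (hc : D.Crit c t F) : ∃ a : ℝ → ℝ, (∀ s, 0 ≤ a s) ∧ IntegrableOn a (Ioc 0 t) ∧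
    ∀ b : ℝ → ℝ, (∀ s, a s ≤ b s) → CritT b (max c 0) t (cur F) := by
  obtain ⟨a, h1, h2⟩ := hc
  refine ⟨fun s => |a s|, fun s => abs_nonneg _, (h1.mono_set Ioc_subset_Icc_self).abs,
    fun b hb => ?_⟩
  filter_upwards [ae_restrict_mem measurableSet_Ioc,
    ae_restrict_of_ae_restrict_of_subset Ioc_subset_Icc_self h2] with s hs h3
  filter_upwards [h3] with x hx
  refine le_trans hx (ENNReal.ofReal_add_le.trans (add_le_add (ENNReal.ofReal_le_ofReal
    ((le_abs_self _).trans (hb s))) (ENNReal.ofReal_le_ofReal ?_)))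
  have := rr_nonneg x
  have := hs.1
  exact div_le_div_of_nonneg_right (le_max_left _ _) (by positivity)

theorem m2_bd (h : D.IsSol F0 F) (t : ℝ) :
    ∃ E : ℝ, 0 ≤ E ∧ ∀ s ∈ Ioc 0 t, ∫⁻ x, m2 (cur F s x) ≤ ENNReal.ofReal E := by
  obtain ⟨C, hC⟩ := h.2.2.1.2.2.2 t
  refine ⟨max C 0, le_max_right _ _, fun s hs => ?_⟩
  obtain ⟨h1, h2⟩ := hC s (Ioc_subset_Icc_self hs)
  have m : Measurable fun p : T3 × V => psi2 p.2 * ENNReal.ofReal (F s p) :=
    (measurable_psi2.comp measurable_snd).mul (h.1.comp measurable_prodMk_left).ennreal_ofReal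
  calc _ = ∫⁻ p : T3 × V, psi2 p.2 * ENNReal.ofReal (F s p) := by
        rw [Measure.volume_eq_prod, lintegral_prod _ m.aemeasurable]
        rfl
    _ ≤ ∫⁻ p, ENNReal.ofReal (D.wt (F s) p) := by
        refine lintegral_mono fun p => ?_
        unfold psi2 D.wt
        rw [← ENNReal.ofReal_mul (by positivity), mul_comm]
        exact ENNReal.ofReal_le_ofReal (mul_le_mul_of_nonneg_left
          (le_add_of_nonneg_right (abs_nonneg _)) (h.2.1 _ _))
    _ ≤ _ := by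
        rw [← ofReal_integral_eq_lintegral_ofReal h1
          (Eventually.of_forall fun p => P140W36.wt_nonneg (f := F s) (h.2.1 _ _))]
        exact ENNReal.ofReal_le_ofReal (h2.trans (le_max_left _ _))

theorem GL_fin (h : D.IsSol F0 F) (ht : 0 ≤ t) (hc : D.Crit c t F) :
    ∫⁻ s in Ioc 0 t, ∫⁻ x, ∫⁻ v, gain (cur F s x) v < ⊤ ∧
      ∫⁻ s in Ioc 0 t, ∫⁻ x, ∫⁻ v, loss (cur F s x) v < ⊤ := by
  obtain ⟨a, -, h1, h2⟩ := crit_cur hc
  obtain ⟨E, -, hE⟩ := m2_bd h t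
  have k := loss_fin (meas_cur h) (fun s x v => h.2.1 _ _) ht (le_max_right _ _) h1
    (h2 a fun _ => le_rfl) hE
  refine ⟨lt_of_eq_of_lt ?_ k, k⟩
  exact lintegral_congr fun s => lintegral_congr fun x =>
    lint_gain_eq (measurable_slice (meas_cur h) s x)

theorem Q_fin (h : D.IsSol F0 F) (ht : 0 ≤ t) (hc : D.Crit c t F) :
    ∫⁻ q : ℝ × T3 × V, D.gain (F q.1) q.2 ∂((volume.restrict (Ioc 0 t)).prod volume) < ⊤ ∧
    ∫⁻ q : ℝ × T3 × V, D.loss (F q.1) q.2 ∂((volume.restrict (Ioc 0 t)).prod volume) < ⊤ := by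
  simp only [gain_cur h, loss_cur h]
  have hm := meas_cur h
  exact ⟨(lint_iter (measurable_gain_st hm) t).trans_lt (GL_fin h ht hc).1,
    (lint_iter (measurable_loss_st hm) t).trans_lt (GL_fin h ht hc).2⟩

theorem Q_meas (h : D.IsSol F0 F) : (Measurable fun q : ℝ × T3 × V => D.gain (F q.1) q.2) ∧
    Measurable fun q : ℝ × T3 × V => D.loss (F q.1) q.2 := by
  simp only [gain_cur h, loss_cur h]
  exact ⟨measurable_gain_st (meas_cur h), measurable_loss_st (meas_cur h)⟩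

theorem Q_int (h : D.IsSol F0 F) (ht : 0 ≤ t) (hc : D.Crit c t F) :
    Integrable (fun q : ℝ × T3 × V => D.coll (F q.1) q.2)
      ((volume.restrict (Ioc 0 t)).prod volume) :=
  (integrable_toReal_of_lintegral_ne_top (Q_meas h).1.aemeasurable (Q_fin h ht hc).1.ne).sub
    (integrable_toReal_of_lintegral_ne_top (Q_meas h).2.aemeasurable (Q_fin h ht hc).2.ne)

theorem F_bd (h : D.IsSol F0 F) (t : ℝ) : ∃ C, ∀ s ∈ Icc 0 t, ∫ p, |F s p| ≤ C := by
  obtain ⟨C, hC⟩ := h.2.2.1.2.2.2 t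
  refine ⟨C, fun s hs => le_trans (integral_mono (h.2.2.1.1 s hs.1).abs (hC s hs).1 fun p => ?_)
    (hC s hs).2⟩
  simp only
  rw [abs_of_nonneg (h.2.1 _ _)]
  exact P140W36.le_wt (f := F s) (h.2.1 _ _)

theorem F_int (h : D.IsSol F0 F) (t : ℝ) : Integrable (fun q : ℝ × T3 × V => F q.1 q.2)
    ((volume.restrict (Ioc 0 t)).prod volume) := by
  obtain ⟨C, hC⟩ := F_bd h t
  rw [integrable_prod_iff h.1.aestronglyMeasurable]
  refine ⟨?_, ?_⟩
  · filter_upwards [ae_restrict_mem measurableSet_Ioc] with s hs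
    exact h.2.2.1.1 s hs.1.le
  · refine Measure.integrableOn_of_bounded (M := C) measure_Ioc_lt_top.ne
      (h.1.norm.stronglyMeasurable.integral_prod_right').aestronglyMeasurable ?_
    filter_upwards [ae_restrict_mem measurableSet_Ioc] with s hs
    rw [Real.norm_of_nonneg (integral_nonneg fun p => norm_nonneg _)]
    exact hC s (Ioc_subset_Icc_self hs)

theorem F0_int (h : D.IsSol F0 F) : Integrable F0 := (h.2.2.1.1 0 le_rfl).congr h.2.2.1.2.2.1

theorem transport_zero {φ : ℝ × T3 × V → ℝ}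
    (hφ : ContDiff ℝ (⊤ : ℕ∞) fun q : ℝ × V × V => φ (q.1, D.proj q.2.1, q.2.2))
    (hs : HasCompactSupport φ) (h0 : ∀ q, t ≤ q.1 → φ q = 0) (q : ℝ × T3 × V) (hq : t < q.1) :
    D.transport φ q = 0 := by
  refine ((P140W36.tr1_90 φ hφ hs).2.2.2 q).trans ?_
  have e : (fun s : ℝ => φ (q.1 + s, q.2.1 + P140W36.proj (s • q.2.2), q.2.2)) =ᶠ[𝓝 0]
      fun _ => 0 := by
    filter_upwards [Ioi_mem_nhds (sub_neg.2 hq)] with s hs
    refine h0 _ ?_
    have : t - q.1 < s := hs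
    show t ≤ q.1 + s
    linarith
  rw [e.deriv_eq, deriv_const]

theorem cut {g : ℝ × T3 × V → ℝ} (hg : ∀ q, t < q.1 → g q = 0) :
    ∫ q in D.slab D.Om (Ici 0), g q = ∫ q, g q ∂((volume.restrict (Ioc 0 t)).prod volume) := by
  rw [← slab_eq]
  exact setIntegral_eq_of_subset_of_forall_sdiff_eq_zero
    (measurableSet_Ici.prod MeasurableSet.univ) (prod_mono Icc_subset_Ici_self le_rfl) fun q hq =>
      hg q (not_le.1 fun hle => hq.2 ⟨⟨hq.1.1, hle⟩, trivial⟩)

theorem rel_nonneg {f : T3 × V → ℝ} {p : T3 × V} (hp : 0 ≤ f p) : 0 ≤ D.rel f p :=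
  P140W36.rel_nonneg hp

theorem M_rel (n : ℕ) (f : T3 × V → ℝ) (p : T3 × V) :
    D.M p.2 * (D.rel f p * fac n (D.rel f p)) = fac n (D.rel f p) * f p := by
  have : D.M p.2 * D.rel f p = f p := mul_div_cancel₀ _ (P140W36.M_pos _).ne'
  rw [← mul_assoc, this, mul_comm]

theorem renorm_n (h : D.IsSol F0 F) {φ : ℝ × T3 × V → ℝ}
    (hφ : ContDiff ℝ (⊤ : ℕ∞) fun q : ℝ × V × V => φ (q.1, D.proj q.2.1, q.2.2))
    (hs : HasCompactSupport φ) (h0 : ∀ q, t ≤ q.1 → φ q = 0) (n : ℕ) :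
    (∫ q : ℝ × T3 × V, fac n (D.rel (F q.1) q.2) * (F q.1 q.2 * D.transport φ q)
      ∂((volume.restrict (Ioc 0 t)).prod volume)) +
    (∫ q : ℝ × T3 × V, fac n (D.rel (F q.1) q.2) * fac n (D.rel (F q.1) q.2) *
      (D.coll (F q.1) q.2 * φ q) ∂((volume.restrict (Ioc 0 t)).prod volume)) +
      ∫ p, fac n (D.rel F0 p) * (F0 p * φ (0, p)) = 0 := by
  have e := (h.2.2.2.1.2.2 _ (fac_smooth n) (zero_mul _)
    ⟨n + 1, fun z hz => fac_bound n hz⟩).2.2.2 φ ⟨hφ, hs⟩
  unfold D.J D.I at e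
  rw [cut (t := t) fun q hq => by rw [transport_zero hφ hs h0 q hq, mul_zero],
    cut (t := t) fun q hq => by rw [h0 q hq.le, mul_zero]] at e
  refine Eq.trans ?_ e
  congr 1
  · congr 1
    · refine integral_congr_ae (Eventually.of_forall fun q => ?_)
      beta_reduce
      rw [M_rel, mul_assoc]
    · refine integral_congr_ae (Eventually.of_forall fun q => ?_)
      beta_reduce
      rw [fac_deriv n (rel_nonneg (h.2.1 _ _)), ← mul_assoc]
  · refine integral_congr_ae (Eventually.of_forall fun p => ?_)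
    beta_reduce
    rw [M_rel, mul_assoc]

theorem fac_abs (n : ℕ) {z : ℝ} (hz : 0 ≤ z) : |fac n z| ≤ 1 := by
  rw [abs_of_pos (fac_pos n hz)]
  exact fac_le n hz

theorem lim3 {α β : Type*} [MeasurableSpace α] [MeasurableSpace β] {μ : Measure α} {ν : Measure β}
    {f₁ f₂ g : α → ℝ} {f₃ g₀ : β → ℝ} (i1 : Integrable f₁ μ) (i2 : Integrable f₂ μ)
    (i3 : Integrable f₃ ν) (mg : Measurable g) (mg₀ : Measurable g₀) (h : ∀ q, 0 ≤ g q)
    (h₀ : ∀ p, 0 ≤ g₀ p) (e : ∀ n, (∫ q, fac n (g q) * f₁ q ∂μ) +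
      (∫ q, fac n (g q) * fac n (g q) * f₂ q ∂μ) + ∫ p, fac n (g₀ p) * f₃ p ∂ν = 0) :
    (∫ q, f₁ q ∂μ) + (∫ q, f₂ q ∂μ) + ∫ p, f₃ p ∂ν = 0 := by
  have t1 := dom i1 (a := fun n q => fac n (g q)) (fun n => (fac_meas n).comp mg)
    (fun n q => fac_abs n (h q)) fun q => fac_lim _
  have t2 := dom i2 (a := fun n q => fac n (g q) * fac n (g q))
    (fun n => ((fac_meas n).comp mg).mul ((fac_meas n).comp mg))
    (fun n q => by
      rw [abs_mul]
      exact mul_le_one₀ (fac_abs n (h q)) (abs_nonneg _) (fac_abs n (h q)))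
    fun q => by
      have := (fac_lim (g q)).mul (fac_lim (g q))
      rwa [mul_one] at this
  have t3 := dom i3 (a := fun n p => fac n (g₀ p)) (fun n => (fac_meas n).comp mg₀)
    (fun n p => fac_abs n (h₀ p)) fun p => fac_lim _
  exact tendsto_nhds_unique ((t1.add t2).add t3) (tendsto_const_nhds.congr fun n => (e n).symm)

theorem test_bd {φ : ℝ × T3 × V → ℝ}
    (hφ : ContDiff ℝ (⊤ : ℕ∞) fun q : ℝ × V × V => φ (q.1, D.proj q.2.1, q.2.2))
    (hs : HasCompactSupport φ) : Continuous φ ∧ Continuous (D.transport φ) ∧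
      (∃ A, ∀ q, ‖φ q‖ ≤ A) ∧ ∃ B, ∀ q, ‖D.transport φ q‖ ≤ B := by
  obtain ⟨c1, c2, c3, -⟩ := P140W36.tr1_90 φ hφ hs
  exact ⟨c1, c2, hs.exists_bound_of_continuous c1, c3.exists_bound_of_continuous c2⟩

theorem meas_rel (h : D.IsSol F0 F) : Measurable fun q : ℝ × T3 × V => D.rel (F q.1) q.2 :=
  h.1.div (P140W36.measurable_M.comp measurable_snd.snd)

theorem meas_rel0 (hd : D.IsDatum F0) : Measurable (D.rel F0) :=
  hd.1.div (P140W36.measurable_M.comp measurable_snd)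

/-- the equation without renormalization -/
theorem plain_weak (hd : D.IsDatum F0) (h : D.IsSol F0 F) (ht : 0 ≤ t) (hc : D.Crit c t F)
    (φ : ℝ × T3 × V → ℝ)
    (hφ : ContDiff ℝ (⊤ : ℕ∞) fun q : ℝ × V × V => φ (q.1, D.proj q.2.1, q.2.2))
    (hs : HasCompactSupport φ) (h0 : ∀ q, t ≤ q.1 → φ q = 0) :
    (∫ q in D.slab D.Om (Icc 0 t), F q.1 q.2 * D.transport φ q) +
      (∫ q in D.slab D.Om (Icc 0 t), D.coll (F q.1) q.2 * φ q) + ∫ p, F0 p * φ (0, p) = 0 := by
  obtain ⟨c1, c2, ⟨A, hA⟩, B, hB⟩ := test_bd hφ hs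
  have c3 : Continuous fun p => φ (0, p) := c1.comp (Continuous.prodMk_right 0)
  rw [slab_eq]
  exact lim3 ((F_int h t).mul_bdd c2.aestronglyMeasurable (Eventually.of_forall hB))
    ((Q_int h ht hc).mul_bdd c1.aestronglyMeasurable (Eventually.of_forall hA))
    ((F0_int h).mul_bdd c3.aestronglyMeasurable (Eventually.of_forall fun p => hA _))
    (meas_rel h) (meas_rel0 hd) (fun q => rel_nonneg (h.2.1 _ _)) (fun p => rel_nonneg (hd.2.1 _))
    (renorm_n h hφ hs h0)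

theorem plain (hd : D.IsDatum F0) (h : D.IsSol F0 F) (ht : 0 < t) (hc : D.Crit c t F) :
    D.Plain t F0 F := by
  obtain ⟨C, hC⟩ := F_bd h t
  have key := duhamel (u := fun q => F q.1 q.2) (r := fun q => D.coll (F q.1) q.2) (u0 := F0) ht
    (F_int h t) (Q_int h ht.le hc) (F0_int h) (fun s hs => h.2.2.1.1 s hs.1) hC
    (fun θ h1 h2 => (h.2.2.1.2.1 θ h1 h2).mono Icc_subset_Ici_self) (by
      intro φ hφ h0
      obtain ⟨R, hR⟩ := hφ.compact
      have hs : HasCompactSupport fun q : ℝ × T3 × V => φ q.1 q.2.1 q.2.2 := by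
        refine HasCompactSupport.intro ((isCompact_closedBall (0 : ℝ) R).prod
          (isCompact_univ.prod (isCompact_closedBall (0 : V) R))) fun q hq => hR _ _ _ ?_
        by_contra hn
        rw [not_or, not_lt, not_lt] at hn
        exact hq ⟨by simpa using hn.1, trivial, by simpa using hn.2⟩
      have e := plain_weak hd h ht.le hc _ hφ.smooth hs fun q hq => h0 _ _ _ hq
      have c4 : ∀ q, D.transport (fun q : ℝ × T3 × V => φ q.1 q.2.1 q.2.2) q =
          transport (fun t x => φ t x q.2.2) q.1 q.2.1 q.2.2 :=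
        (P140W36.tr1_90 _ hφ.smooth hs).2.2.2
      simp only [c4, slab_eq] at e
      exact e)
  refine ⟨?_, fun φ hφ => plain_weak hd h ht.le hc φ hφ.1 hφ.2, fun s hs => ?_, fun s hs => ?_⟩
  · rw [slab_eq, lintegral_add_left (Q_meas h).1]
    exact ENNReal.add_lt_top.2 (Q_fin h ht.le hc)
  · filter_upwards [key s hs] with p hp
    rw [integral_Icc_eq_integral_Ioc]
    exact hp
  · exact strong_cont (u := fun q => F q.1 q.2) (Q_int h ht.le hc) (fun s hs => h.2.2.1.1 s hs.1)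
      key hs

theorem mild (hd : D.IsDatum F0) (h : D.IsSol F0 F) (ht : 0 < t) (hc : D.Crit c t F) :
    MildT t (fun x v => F0 (x, v)) (cur F) := by
  have hm := meas_cur h
  have h0 : ∀ s x v, 0 ≤ cur F s x v := fun s x v => h.2.1 _ _
  have each : ∀ s ∈ Icc 0 t, ∀ᵐ p : T3 × V, along (cur F) (s, p) = F0 (p.1, p.2) +
      ∫ r in Ioc 0 s, ((gainA (cur F) (r, p)).toReal - (lossA (cur F) (r, p)).toReal) := by
    intro s hs
    filter_upwards [(plain hd h ht hc).2.2.1 s hs] with p hp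
    rw [integral_Icc_eq_integral_Ioc] at hp
    simp only [D.coll, gain_cur h, loss_cur h] at hp
    exact hp
  refine ⟨hm, h0, m2_bd h t, ?_, ?_, each⟩
  · filter_upwards [ae_lt_top (meas_line (measurable_gain_st hm) t)
      ((lint_flow (measurable_gain_st hm) t).trans_lt (GL_fin h ht.le hc).1).ne,
      ae_lt_top (meas_line (measurable_loss_st hm) t)
      ((lint_flow (measurable_loss_st hm) t).trans_lt (GL_fin h ht.le hc).2).ne]
      with p h1 h2
    exact ⟨h1, h2⟩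
  · have m1 : Measurable fun q : ℝ × T3 × V => F0 (q.2.1, q.2.2) + ∫ r in Ioc 0 q.1,
        ((gainA (cur F) (r, q.2)).toReal - (lossA (cur F) (r, q.2)).toReal) :=
      (hd.1.comp measurable_snd).add (measurable_primitive
        (r := fun q => (gainA (cur F) q).toReal - (lossA (cur F) q).toReal)
        ((measurable_gainA hm).ennreal_toReal.sub (measurable_lossA hm).ennreal_toReal))
    refine (Measure.ae_ae_comm (p := fun s (p : T3 × V) => along (cur F) (s, p) = F0 (p.1, p.2) +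
      ∫ r in Ioc 0 s, ((gainA (cur F) (r, p)).toReal - (lossA (cur F) (r, p)).toReal))
      (measurableSet_eq_fun (measurable_along hm) m1)).1 ?_
    filter_upwards [ae_restrict_mem measurableSet_Ioc] with s hs
    exact each s (Ioc_subset_Icc_self hs)

theorem small {G : ℝ → T3 × V → ℝ} (ht : 0 < t) (hd : D.IsDatum F0) (hF : D.IsSol F0 F)
    (hG : D.IsSol F0 G) (cF : D.Crit (1 / 120) t F) (cG : D.Crit (1 / 120) t G) {s : ℝ}
    (hs : s ∈ Icc 0 t) : F s =ᵐ[volume] G s := by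
  obtain ⟨a, a0, a1, a2⟩ := crit_cur cF
  obtain ⟨b, b0, b1, b2⟩ := crit_cur cG
  exact unique (a := fun s => a s + b s) (mild hd hF ht cF) (mild hd hG ht cG) (le_max_right _ _)
    (max_le le_rfl (by norm_num)) (fun s => add_nonneg (a0 s) (b0 s)) (a1.add b1)
    (a2 _ fun s => le_add_of_nonneg_right (b0 s)) (b2 _ fun s => le_add_of_nonneg_left (a0 s)) hs

end

theorem threshold :
    (¬ ∀ F0 F G, D.IsDatum F0 → D.IsSol F0 F → D.IsSol F0 G →
      ∀ᵐ q : ℝ × D.Om ∂volume.restrict (D.slab D.Om (Ici 0)), F q.1 q.2 = G q.1 q.2) ∧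
    (∀ F0 F c t, 0 < t → D.IsDatum F0 → D.IsSol F0 F → D.Crit c t F → D.Plain t F0 F) ∧
    (∀ F0 F G t, 0 < t → D.IsDatum F0 → D.IsSol F0 F → D.IsSol F0 G → D.Crit (1 / 120) t F →
      D.Crit (1 / 120) t G → ∀ s ∈ Icc 0 t, F s =ᵐ[volume] G s) ∧
    ∀ δ : ℝ, 0 < δ → ∃ (F0 : D.Om → ℝ) (C τ : ℝ), D.IsDatum F0 ∧ D.I (D.wt F0) < δ ∧ 0 < τ ∧
      ∀ t ∈ Ioo 0 τ, ∃ (F : ℝ → ℝ → D.Om → ℝ), ∀ m ∈ Icc (0 : ℝ) 1,
        D.IsSol F0 (F m) ∧ D.Crit C t (F m) ∧ D.Plain t F0 (F m) ∧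
        ∀ m' ∈ Icc (0 : ℝ) 1, m' ≠ m → ¬ F m t =ᵐ[volume] F m' t := by
  refine ⟨fun h => ?_, fun F0 F c t ht hd h hc => plain hd h ht hc,
    fun F0 F G t ht hd hF hG cF cG s hs => small ht hd hF hG cF cG hs, fun δ hδ => ?_⟩
  · exact (P140W36.main P140W36.tr0_90 P140W36.tr1_90 P140W36.coll62 P140W36.c1 P140W36.bal
      P140W36.ent_row).1 fun F0 F G hd hF hG => h F0 F G hd (isSol_iff.2 hF) (isSol_iff.2 hG)
  obtain ⟨F0, C, τ, hτ, hs, hc⟩ := h725_main δ hδ
  have br : ∀ {F}, Stt.IsSol H725.proj F0 F → D.IsDatum F0 ∧ D.IsSol F0 F := fun h =>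
    (P140W36.bridge P140W36.tr0_90 P140W36.tr1_90 P140W36.coll62 P140W36.c1 P140W36.bal
      P140W36.ent_row P140W36.ren h).imp id isSol_iff.2
  have hd : D.IsDatum F0 := by
    obtain ⟨A, a, b, F, -, -, hab, hF⟩ := hc (τ / 2) (by positivity) (by linarith)
    exact (br (hF a ⟨le_rfl, hab.le⟩).1).1
  refine ⟨F0, 20000 * C, τ, hd, ?_, hτ, fun t ht => ?_⟩
  · rw [← ENNReal.ofReal_lt_ofReal_iff hδ, D.I, ofReal_integral_eq_lintegral_ofReal hd.2.2
      (Eventually.of_forall fun p => P140W36.wt_nonneg (f := F0) (hd.2.1 p))]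
    exact hs
  obtain ⟨A, a, b, F, -, -, hab, hF⟩ := hc t ht.1 ht.2
  have hmem : ∀ m ∈ Icc (0 : ℝ) 1, a + m * (b - a) ∈ Icc a b := fun m hm =>
    ⟨by nlinarith [hm.1], by nlinarith [hm.2]⟩
  refine ⟨fun m => F (a + m * (b - a)), fun m hm => ?_⟩
  obtain ⟨h1, h2, -, h4⟩ := hF _ (hmem m hm)
  have hS := (br h1).2
  have hC : D.Crit (20000 * C) t (F (a + m * (b - a))) := by
    refine ⟨0, integrableOn_zero, ?_⟩
    filter_upwards [ae_restrict_mem measurableSet_Icc] with s hs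
    filter_upwards [h2.moments s hs] with x hx
    calc _ ≤ ∫⁻ v : V, ENNReal.ofReal 20000 *
          ENNReal.ofReal (Real.exp (‖v‖ ^ 2 / 32) * F (a + m * (b - a)) s (x, v)) := by
          refine lintegral_mono fun v => ?_
          rw [← ENNReal.ofReal_mul (by norm_num), ← mul_assoc]
          exact ENNReal.ofReal_le_ofReal
            (mul_le_mul_of_nonneg_right (cube_le_exp (norm_nonneg _)) (hS.2.1 _ _))
      _ ≤ ENNReal.ofReal 20000 * ENNReal.ofReal (C / (s + H725.lineDist x)) := by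
          rw [lintegral_const_mul' _ _ ENNReal.ofReal_ne_top]
          exact mul_le_mul' le_rfl hx
      _ = _ := by
          rw [← ENNReal.ofReal_mul (by norm_num), mul_div_assoc, Pi.zero_apply, zero_add]
          rfl
  refine ⟨hS, hC, plain hd hS ht.1 hC, fun m' hm' hne => (h4 _ (hmem m' hm') fun he => hne ?_).1⟩
  exact mul_right_cancel₀ (sub_pos.2 hab).ne' (add_left_cancel he)

end Vale.Agent.N140
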