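import Vale.Agent.N140.Vel

/-!
# P140: uniqueness of mild solutions with a small critical bound
-/

open MeasureTheory Set Filter
open scoped ENNReal Topology NNReal

noncomputable section

namespace Vale.Agent.N140

open Vale.Agent.P140 Vale.Agent.P140.DL Vale.Agent.P140.NU

/-- mild solutions up to the time `T` -/
structure MildT (T : ℝ) (F0 : T3 → V → ℝ) (F : ℝ → T3 → V → ℝ) : Prop where
  measurable : Measurable fun p : ℝ × T3 × V => F p.1 p.2.1 p.2.2
  nonneg : ∀ t x v, 0 ≤ F t x v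
  bd : ∃ E : ℝ, 0 ≤ E ∧ ∀ s ∈ Ioc 0 T, ∫⁻ x, m2 (F s x) ≤ ENNReal.ofReal E
  fin : ∀ᵐ p : T3 × V, (∫⁻ s in Ioc 0 T, gainA F (s, p) < ⊤) ∧
    (∫⁻ s in Ioc 0 T, lossA F (s, p) < ⊤)
  ae : ∀ᵐ p : T3 × V, ∀ᵐ t ∂volume.restrict (Ioc 0 T), along F (t, p) =
      F0 p.1 p.2 + ∫ s in Ioc 0 t, ((gainA F (s, p)).toReal - (lossA F (s, p)).toReal)
  each : ∀ t ∈ Icc 0 T, ∀ᵐ p : T3 × V, along F (t, p) =
      F0 p.1 p.2 + ∫ s in Ioc 0 t, ((gainA F (s, p)).toReal - (lossA F (s, p)).toReal)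

/-- the critical bound -/
def CritT (a : ℝ → ℝ) (c T : ℝ) (F : ℝ → T3 → V → ℝ) : Prop :=
  ∀ᵐ s ∂volume.restrict (Ioc 0 T), ∀ᵐ x,
    m3 (F s x) ≤ ENNReal.ofReal (a s) + ENNReal.ofReal (c / (s + rr x))

theorem CritT.mono {a : ℝ → ℝ} {c T t : ℝ} {F : ℝ → T3 → V → ℝ} (h : CritT a c T F) (ht : t ≤ T) :
    CritT a c t F := ae_restrict_of_ae_restrict_of_subset (Ioc_subset_Ioc_right ht) h

theorem lint_flow {W : ℝ × T3 × V → ℝ≥0∞} (hW : Measurable W) (t : ℝ) :
    ∫⁻ p : T3 × V, ∫⁻ s in Ioc 0 t, W (stFlow (s, p)) =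
      ∫⁻ s in Ioc 0 t, ∫⁻ x, ∫⁻ v, W (s, x, v) := by
  rw [← lintegral_lintegral_swap (f := fun s p => W (stFlow (s, p)))
    (hW.comp measurable_stFlow).aemeasurable]
  refine lintegral_congr fun s => ?_
  have hs : Measurable fun p : T3 × V => W (s, p) := hW.comp measurable_prodMk_left
  refine (lintegral_flow s hs).trans ?_
  rw [Measure.volume_eq_prod, lintegral_prod _ hs.aemeasurable]

theorem meas_x {W : ℝ × T3 × V → ℝ≥0∞} (hW : Measurable W) :
    Measurable fun y : ℝ × T3 => ∫⁻ v, W (y.1, y.2, v) :=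
  (hW.comp (f := fun z : (ℝ × T3) × V => (z.1.1, z.1.2, z.2))
    (by fun_prop)).lintegral_prod_right'

theorem meas_s {W : ℝ × T3 → ℝ≥0∞} (hW : Measurable W) : Measurable fun s : ℝ => ∫⁻ x, W (s, x) :=
  hW.lintegral_prod_right'

theorem lint3_le {W₁ W₂ W₃ : ℝ × T3 × V → ℝ≥0∞} (m₂ : Measurable W₂)
    (hw : ∀ s x, ∫⁻ v, W₁ (s, x, v) ≤ (∫⁻ v, W₂ (s, x, v)) + 2 * ∫⁻ v, W₃ (s, x, v)) (t : ℝ) :
    ∫⁻ s in Ioc 0 t, ∫⁻ x, ∫⁻ v, W₁ (s, x, v) ≤
      (∫⁻ s in Ioc 0 t, ∫⁻ x, ∫⁻ v, W₂ (s, x, v)) +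
        2 * ∫⁻ s in Ioc 0 t, ∫⁻ x, ∫⁻ v, W₃ (s, x, v) := by
  have k1 := meas_x m₂
  have k2 : Measurable fun s : ℝ => ∫⁻ x, ∫⁻ v, W₂ (s, x, v) := meas_s k1
  rw [← lintegral_const_mul' _ _ (by norm_num), ← lintegral_add_left k2]
  refine lintegral_mono fun s => ?_
  have k3 : Measurable fun x : T3 => ∫⁻ v, W₂ (s, x, v) :=
    k1.comp (f := fun x : T3 => (s, x)) measurable_prodMk_left
  beta_reduce
  rw [← lintegral_const_mul' _ _ (by norm_num), ← lintegral_add_left k3]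
  exact lintegral_mono fun x => hw s x

section

variable {a : ℝ → ℝ} {T c : ℝ} {F0 : T3 → V → ℝ} {F G : ℝ → T3 → V → ℝ}

/-- the modulus of the difference -/
def dif (F G : ℝ → T3 → V → ℝ) (s : ℝ) (x : T3) (u : V) : ℝ := |F s x u - G s x u|

/-- the sum -/
def tot (F G : ℝ → T3 → V → ℝ) (s : ℝ) (x : T3) (u : V) : ℝ := F s x u + G s x u

theorem meas_ev {H : ℝ → T3 → V → ℝ} (hH : Measurable fun p : ℝ × T3 × V => H p.1 p.2.1 p.2.2)
    {π : V × V × V × V → V} (hπ : Measurable π) :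
    Measurable fun z : (ℝ × T3 × V) × V × V × V × V => H z.1.1 z.1.2.1 (π z.2) :=
  hH.comp (f := fun z : (ℝ × T3 × V) × V × V × V × V => (z.1.1, z.1.2.1, π z.2)) (by fun_prop)

theorem meas_PB {h S : ℝ → T3 → V → ℝ} (mh : Measurable fun p : ℝ × T3 × V => h p.1 p.2.1 p.2.2)
    (mS : Measurable fun p : ℝ × T3 × V => S p.1 p.2.1 p.2.2) :
    Measurable fun q : ℝ × T3 × V => J (PB (h q.1 q.2.1) (S q.1 q.2.1)) q.2.2 :=
  meas_J (π := fun q : ℝ × T3 × V => q.2.2) (by fun_prop)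
    (P := fun z => PB (h z.1.1 z.1.2.1) (S z.1.1 z.1.2.1) z.2)
    ((meas_ev mh measurable_fst).mul (meas_ev mS measurable_snd.fst)).ennreal_ofReal

theorem meas_PE {h S : ℝ → T3 → V → ℝ} (mh : Measurable fun p : ℝ × T3 × V => h p.1 p.2.1 p.2.2)
    (mS : Measurable fun p : ℝ × T3 × V => S p.1 p.2.1 p.2.2) :
    Measurable fun q : ℝ × T3 × V => J (PE (h q.1 q.2.1) (S q.1 q.2.1)) q.2.2 :=
  meas_J (π := fun q : ℝ × T3 × V => q.2.2) (by fun_prop)
    (P := fun z => PE (h z.1.1 z.1.2.1) (S z.1.1 z.1.2.1) z.2)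
    ((measurable_psi2.comp measurable_snd.snd.fst).mul
      ((meas_ev mh measurable_fst).mul (meas_ev mS measurable_snd.fst)).ennreal_ofReal)

theorem meas_PA {h S : ℝ → T3 → V → ℝ} (mh : Measurable fun p : ℝ × T3 × V => h p.1 p.2.1 p.2.2)
    (mS : Measurable fun p : ℝ × T3 × V => S p.1 p.2.1 p.2.2) :
    Measurable fun q : ℝ × T3 × V => J (PA (h q.1 q.2.1) (S q.1 q.2.1)) q.2.2 :=
  meas_J (π := fun q : ℝ × T3 × V => q.2.2) (by fun_prop)
    (P := fun z => PA (h z.1.1 z.1.2.1) (S z.1.1 z.1.2.1) z.2)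
    (((meas_ev mh measurable_snd.snd.fst).mul
      (meas_ev mS measurable_snd.snd.snd)).ennreal_ofReal.add
      ((meas_ev mS measurable_snd.snd.fst).mul
        (meas_ev mh measurable_snd.snd.snd)).ennreal_ofReal)

theorem crit_tot (hF : MildT T F0 F) (hG : MildT T F0 G) (cF : CritT a c T F)
    (cG : CritT a c T G) : CritT (fun s => 2 * a s) (2 * c) T (tot F G) := by
  filter_upwards [cF, cG] with s k1 k2
  filter_upwards [k1, k2] with x h1 h2
  have e := m3_add (measurable_slice hF.measurable s x) (hF.nonneg s x) (hG.nonneg s x)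
  refine (le_of_eq e).trans ((add_le_add h1 h2).trans (le_of_eq ?_))
  rw [mul_div_assoc, ENNReal.ofReal_mul (by norm_num), ENNReal.ofReal_mul (by norm_num),
    ENNReal.ofReal_ofNat]
  ring

theorem bd_tot (hF : MildT T F0 F) (hG : MildT T F0 G) :
    ∃ E : ℝ, 0 ≤ E ∧ ∀ s ∈ Ioc 0 T, ∫⁻ x, m2 (tot F G s x) ≤ ENNReal.ofReal E := by
  obtain ⟨E, h0, hE⟩ := hF.bd
  obtain ⟨E', h0', hE'⟩ := hG.bd
  refine ⟨E + E', add_nonneg h0 h0', fun s hs => ?_⟩
  have m : Measurable fun x => m2 (F s x) :=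
    (meas_x (W := fun q => psi2 q.2.2 * ENNReal.ofReal (F q.1 q.2.1 q.2.2))
      ((measurable_psi2.comp measurable_snd.snd).mul hF.measurable.ennreal_ofReal)).comp
      (f := fun x : T3 => (s, x)) measurable_prodMk_left
  rw [ENNReal.ofReal_add h0 h0']
  refine le_trans (le_of_eq ?_) (add_le_add (hE s hs) (hE' s hs))
  rw [← lintegral_add_left m]
  exact lintegral_congr fun x =>
    m2_add (measurable_slice hF.measurable s x) (hF.nonneg s x) (hG.nonneg s x)

/-- the good term -/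
def BB (F G : ℝ → T3 → V → ℝ) (q : ℝ × T3 × V) : ℝ≥0∞ :=
  J (PB (dif F G q.1 q.2.1) (tot F G q.1 q.2.1)) q.2.2

/-- the bad terms -/
def UU (F G : ℝ → T3 → V → ℝ) (q : ℝ × T3 × V) : ℝ≥0∞ :=
  J (PA (dif F G q.1 q.2.1) (tot F G q.1 q.2.1)) q.2.2 +
    J (PB (tot F G q.1 q.2.1) (dif F G q.1 q.2.1)) q.2.2

/-- the remaining term -/
def EE (F G : ℝ → T3 → V → ℝ) (q : ℝ × T3 × V) : ℝ≥0∞ :=
  J (PE (dif F G q.1 q.2.1) (tot F G q.1 q.2.1)) q.2.2

theorem meas_dif (hF : MildT T F0 F) (hG : MildT T F0 G) :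
    Measurable fun p : ℝ × T3 × V => dif F G p.1 p.2.1 p.2.2 :=
  (hF.measurable.sub hG.measurable).abs

theorem meas_tot (hF : MildT T F0 F) (hG : MildT T F0 G) :
    Measurable fun p : ℝ × T3 × V => tot F G p.1 p.2.1 p.2.2 :=
  hF.measurable.add hG.measurable

theorem dif_nonneg (s : ℝ) (x : T3) (u : V) : 0 ≤ dif F G s x u := abs_nonneg _

theorem tot_nonneg (hF : MildT T F0 F) (hG : MildT T F0 G) (s : ℝ) (x : T3) (u : V) :
    0 ≤ tot F G s x u := add_nonneg (hF.nonneg s x u) (hG.nonneg s x u)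

theorem dif_le_tot (hF : MildT T F0 F) (hG : MildT T F0 G) (s : ℝ) (x : T3) (u : V) :
    dif F G s x u ≤ tot F G s x u := by
  have := hF.nonneg s x u
  have := hG.nonneg s x u
  exact abs_le.2 ⟨by unfold tot; linarith, by unfold tot; linarith⟩

theorem meas_BB (hF : MildT T F0 F) (hG : MildT T F0 G) : Measurable (BB F G) :=
  meas_PB (meas_dif hF hG) (meas_tot hF hG)

theorem meas_UU (hF : MildT T F0 F) (hG : MildT T F0 G) : Measurable (UU F G) :=
  (meas_PA (meas_dif hF hG) (meas_tot hF hG)).add (meas_PB (meas_tot hF hG) (meas_dif hF hG))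

theorem BB_fin (hF : MildT T F0 F) (hG : MildT T F0 G) (hc : 0 ≤ c)
    (ha : IntegrableOn a (Ioc 0 T)) (cF : CritT a c T F) (cG : CritT a c T G) {t : ℝ}
    (ht : t ∈ Ioc 0 T) : ∫⁻ s in Ioc 0 t, ∫⁻ x, ∫⁻ v, psi2 v * BB F G (s, x, v) < ⊤ := by
  obtain ⟨E, -, hE⟩ := bd_tot hF hG
  refine lt_of_le_of_lt (lintegral_mono fun s => ?_) (lint_pq_fin (p := fun s x => m2 (tot F G s x))
    (q := fun s x => m3 (tot F G s x)) (c := 2 * c) ht.1.le (by positivity)
    (fun s x => m2_le_m3 (tot_nonneg hF hG s x))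
    ((crit_tot hF hG cF cG).mono ht.2)
    ((ha.mono_set (Ioc_subset_Ioc_right ht.2)).const_mul 2) fun s hs => hE s ⟨hs.1, hs.2.trans ht.2⟩)
  simp only
  rw [← lintegral_const_mul' _ _ (by norm_num)]
  refine lintegral_mono fun x => ?_
  exact (PB_le (measurable_slice (meas_dif hF hG) s x)
    (measurable_slice (meas_tot hF hG) s x) (dif_nonneg s x)
    (tot_nonneg hF hG s x)).trans (mul_le_mul' le_rfl (mul_le_mul' le_rfl
      (m3_mono (dif_le_tot hF hG s x))))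

theorem point_FG (hF : MildT T F0 F) (hG : MildT T F0 G) (s : ℝ) (p : T3 × V) :
    (along G (s, p) ≤ along F (s, p) → 2 * gainA F (s, p) + 2 * lossA G (s, p) +
      BB F G (stFlow (s, p)) ≤ 2 * gainA G (s, p) + 2 * lossA F (s, p) + UU F G (stFlow (s, p))) ∧
    (along F (s, p) ≤ along G (s, p) → 2 * gainA G (s, p) + 2 * lossA F (s, p) +
      BB F G (stFlow (s, p)) ≤ 2 * gainA F (s, p) + 2 * lossA G (s, p) + UU F G (stFlow (s, p))) :=
  ⟨fun hs => point (measurable_slice hF.measurable s (p.1 + toTorus (s • p.2)))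
    (measurable_slice hG.measurable _ _) (measurable_slice (meas_dif hF hG) _ _)
    (measurable_slice (meas_tot hF hG) _ _) (hF.nonneg _ _) (hG.nonneg _ _)
    (fun _ => rfl) (fun _ => rfl) hs,
  fun hs => point (measurable_slice hG.measurable s (p.1 + toTorus (s • p.2)))
    (measurable_slice hF.measurable _ _) (measurable_slice (meas_dif hF hG) _ _)
    (measurable_slice (meas_tot hF hG) _ _) (hG.nonneg _ _) (hF.nonneg _ _)
    (fun _ => abs_sub_comm _ _) (fun _ => add_comm _ _) hs⟩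

/-- the inequality along the characteristics -/
theorem line_ae (hF : MildT T F0 F) (hG : MildT T F0 G) {t : ℝ} (ht : t ∈ Ioc 0 T)
    (hBae : ∀ᵐ p : T3 × V,
      ∫⁻ s in Ioc 0 t, psi2 (stFlow (s, p)).2.2 * BB F G (stFlow (s, p)) < ⊤) :
    ∀ᵐ p : T3 × V, 2 * (psi2 p.2 * ENNReal.ofReal (along (dif F G) (t, p))) +
      ∫⁻ s in Ioc 0 t, psi2 (stFlow (s, p)).2.2 * BB F G (stFlow (s, p)) ≤
      ∫⁻ s in Ioc 0 t, psi2 (stFlow (s, p)).2.2 * UU F G (stFlow (s, p)) := by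
  filter_upwards [hF.fin, hG.fin, hBae, hF.ae, hG.ae, hF.each t (Ioc_subset_Icc_self ht),
    hG.each t (Ioc_subset_Icc_self ht)] with p hp hq hb ap aq ep eq
  have hpm : Measurable fun s : ℝ => ((s, p) : ℝ × T3 × V) := by fun_prop
  have hsub : Ioc 0 t ⊆ Ioc 0 T := Ioc_subset_Ioc_right ht.2
  have hb' : ∫⁻ s in Ioc 0 t, BB F G (stFlow (s, p)) < ⊤ := by
    refine lt_of_le_of_lt (lintegral_mono fun s => ?_) hb
    have : (1 : ℝ≥0∞) ≤ psi2 (stFlow (s, p)).2.2 := psi0_le_psi2 _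
    exact le_mul_of_one_le_left' this
  have key := line_est (gF := fun s => gainA F (s, p)) (lF := fun s => lossA F (s, p))
    (gG := fun s => gainA G (s, p)) (lG := fun s => lossA G (s, p))
    (B := fun s => BB F G (stFlow (s, p))) (U := fun s => UU F G (stFlow (s, p)))
    (c := F0 p.1 p.2) ht.1.le
    ((measurable_gainA hF.measurable).comp hpm) ((measurable_lossA hF.measurable).comp hpm)
    ((measurable_gainA hG.measurable).comp hpm) ((measurable_lossA hG.measurable).comp hpm)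
    (((meas_BB hF hG).comp measurable_stFlow).comp hpm)
    (((meas_UU hF hG).comp measurable_stFlow).comp hpm)
    ((lintegral_mono_set hsub).trans_lt hp.1) ((lintegral_mono_set hsub).trans_lt hp.2)
    ((lintegral_mono_set hsub).trans_lt hq.1) ((lintegral_mono_set hsub).trans_lt hq.2) hb'
    (fun s _ => rfl) (fun s _ => rfl) (by
      filter_upwards [ae_restrict_of_ae_restrict_of_subset hsub ap,
        ae_restrict_of_ae_restrict_of_subset hsub aq] with s h1 h2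
      rw [← h1, ← h2]
      exact point_FG hF hG s p)
  rw [← ep, ← eq] at key
  have e1 : ∀ W : ℝ × T3 × V → ℝ≥0∞,
      ∫⁻ s in Ioc 0 t, psi2 (stFlow (s, p)).2.2 * W (stFlow (s, p)) =
      psi2 p.2 * ∫⁻ s in Ioc 0 t, W (stFlow (s, p)) := fun W =>
    lintegral_const_mul' (psi2 p.2) _ (psi2_ne_top _)
  rw [e1, e1, mul_left_comm, ← mul_add]
  exact mul_le_mul' le_rfl key

theorem meas_line {W : ℝ × T3 × V → ℝ≥0∞} (hW : Measurable W) (t : ℝ) :
    Measurable fun p : T3 × V => ∫⁻ s in Ioc 0 t, W (stFlow (s, p)) :=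
  ((hW.comp measurable_stFlow).comp measurable_swap).lintegral_prod_right'

theorem meas_D (hF : MildT T F0 F) (hG : MildT T F0 G) (t : ℝ) :
    Measurable fun p : T3 × V => psi2 p.2 * ENNReal.ofReal (dif F G t p.1 p.2) :=
  (measurable_psi2.comp measurable_snd).mul
    ((meas_dif hF hG).comp (f := fun p : T3 × V => (t, p)) measurable_prodMk_left).ennreal_ofReal

theorem cancel {D Bq Uq Eq : ℝ≥0∞} (hB : Bq ≠ ⊤) (h1 : 2 * D + Bq ≤ Uq) (h2 : Uq ≤ Bq + 2 * Eq) :
    D ≤ Eq := by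
  have h3 := h1.trans h2
  rwa [add_comm, ENNReal.add_le_add_iff_left hB,
    ENNReal.mul_le_mul_iff_right (by norm_num) (by norm_num)] at h3

theorem integrate {D : T3 × V → ℝ≥0∞} {W₁ W₂ : ℝ × T3 × V → ℝ≥0∞} (m₁ : Measurable W₁)
    (m₂ : Measurable W₂) {t : ℝ}
    (h : ∀ᵐ p : T3 × V, 2 * D p + ∫⁻ s in Ioc 0 t, W₁ (stFlow (s, p)) ≤
      ∫⁻ s in Ioc 0 t, W₂ (stFlow (s, p))) :
    2 * (∫⁻ p, D p) + ∫⁻ s in Ioc 0 t, ∫⁻ x, ∫⁻ v, W₁ (s, x, v) ≤
      ∫⁻ s in Ioc 0 t, ∫⁻ x, ∫⁻ v, W₂ (s, x, v) := by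
  have hint := lintegral_mono_ae h
  rwa [lintegral_add_right _ (meas_line m₁ t), lintegral_const_mul' _ _ (by norm_num),
    lint_flow m₁ t, lint_flow m₂ t] at hint

theorem weak_FG (hF : MildT T F0 F) (hG : MildT T F0 G) (s : ℝ) (x : T3) :
    ∫⁻ v, psi2 v * UU F G (s, x, v) ≤
      (∫⁻ v, psi2 v * BB F G (s, x, v)) + 2 * ∫⁻ v, EE F G (s, x, v) := by
  simp only [UU, BB, EE]
  exact weak_est (h := dif F G s x) (S := tot F G s x) (measurable_slice (meas_dif hF hG) s x)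
    (measurable_slice (meas_tot hF hG) s x)

theorem D_flow (hF : MildT T F0 F) (hG : MildT T F0 G) (t : ℝ) :
    ∫⁻ p : T3 × V, psi2 p.2 * ENNReal.ofReal (along (dif F G) (t, p)) =
      ∫⁻ x, m2 (dif F G t x) := by
  have mD := meas_D hF hG t
  refine (lintegral_flow t mD).trans ?_
  rw [Measure.volume_eq_prod, lintegral_prod _ mD.aemeasurable]
  rfl

/-- the integrated inequality for the weighted distance -/
theorem dist_le (hF : MildT T F0 F) (hG : MildT T F0 G) (hc : 0 ≤ c)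
    (ha : IntegrableOn a (Ioc 0 T)) (cF : CritT a c T F) (cG : CritT a c T G) {t : ℝ}
    (ht : t ∈ Ioc 0 T) :
    ∫⁻ x, m2 (dif F G t x) ≤ ∫⁻ s in Ioc 0 t, ∫⁻ x, ∫⁻ v, EE F G (s, x, v) := by
  have mp : Measurable fun q : ℝ × T3 × V => psi2 q.2.2 := measurable_psi2.comp (by fun_prop)
  have mB : Measurable fun q : ℝ × T3 × V => psi2 q.2.2 * BB F G q := mp.mul (meas_BB hF hG)
  have mU : Measurable fun q : ℝ × T3 × V => psi2 q.2.2 * UU F G q := mp.mul (meas_UU hF hG)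
  have hBfin := BB_fin hF hG hc ha cF cG ht
  have hae := ae_lt_top (meas_line mB t) ((lint_flow mB t).trans_lt hBfin).ne
  have hint := integrate mB mU (line_ae hF hG ht hae)
  rw [D_flow hF hG t] at hint
  exact cancel hBfin.ne hint (lint3_le (W₁ := fun q => psi2 q.2.2 * UU F G q) (W₃ := EE F G) mB
    (weak_FG hF hG) t)

/-- uniqueness -/
theorem unique (hF : MildT T F0 F) (hG : MildT T F0 G) (hc0 : 0 ≤ c) (hc1 : c ≤ 1 / 120)
    (ha0 : ∀ s, 0 ≤ a s) (ha : IntegrableOn a (Ioc 0 T))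
    (cF : CritT a c T F) (cG : CritT a c T G) {t : ℝ} (ht : t ∈ Icc 0 T) :
    ∀ᵐ p : T3 × V, F t p.1 p.2 = G t p.1 p.2 := by
  rcases ht.1.eq_or_lt with rfl | ht0
  · filter_upwards [hF.each 0 ht, hG.each 0 ht] with p h1 h2
    simp only [along, zero_smul, toTorus_zero, add_zero, Ioc_self, Measure.restrict_empty,
      integral_zero_measure] at h1 h2
    rw [h1, h2]
  obtain ⟨E, hE0, hE1⟩ := bd_tot hF hG
  have h0 := dif_nonneg (F := F) (G := G)
  have hS := dif_le_tot hF hG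
  have hE : ∀ s x, ∫⁻ v, EE F G (s, x, v) ≤ 26 * (m2 (dif F G s x) * m3 (tot F G s x)) :=
    fun s x => PE_le (measurable_slice (meas_dif hF hG) s x)
      (measurable_slice (meas_tot hF hG) s x) (h0 s x) (tot_nonneg hF hG s x)
  have hz := gronwall (D := fun t => ∫⁻ x, m2 (dif F G t x)) (b := fun s => 104 * a s)
    (A := 26 * (128 * (2 * (2 * c)) ^ 2)) (k := 52 * c) (T := T) (by positivity) hE0
    (by positivity) (by linarith) (fun s => mul_nonneg (by norm_num) (ha0 s)) (ha.const_mul 104)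
    (fun t ht => (lintegral_mono fun x => m2_mono (hS t x)).trans (hE1 t ht)) ?_ ?_ t ⟨ht0, ht.2⟩
  · have mD := meas_D hF hG t
    have e : ∫⁻ p : T3 × V, psi2 p.2 * ENNReal.ofReal (dif F G t p.1 p.2) = 0 := by
      rw [Measure.volume_eq_prod, lintegral_prod _ mD.aemeasurable]
      exact hz
    filter_upwards [(lintegral_eq_zero_iff mD).1 e] with p hp
    have h1 : (1 : ℝ≥0∞) ≤ psi2 p.2 := psi0_le_psi2 _
    have h2 : psi2 p.2 ≠ 0 := (zero_lt_one.trans_le h1).ne'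
    have h3 : ENNReal.ofReal (dif F G t p.1 p.2) = 0 := (mul_eq_zero.1 hp).resolve_left h2
    exact sub_eq_zero.1 (abs_nonpos_iff.1 (ENNReal.ofReal_eq_zero.1 h3))
  · intro t ht
    have h1 := lint_pq (p := fun s x => m2 (dif F G s x)) (q := fun s x => m3 (tot F G s x))
      (c := 2 * c) ht.1.le (by positivity)
      (fun s x => (m2_le_m3 (h0 s x)).trans (m3_mono (hS s x)))
      ((crit_tot hF hG cF cG).mono ht.2)
    calc _ ≤ _ := dist_le hF hG hc0 ha cF cG ht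
      _ ≤ ∫⁻ s in Ioc 0 t, 26 * ∫⁻ x, m2 (dif F G s x) * m3 (tot F G s x) := by
          refine lintegral_mono fun s => ?_
          simp only
          rw [← lintegral_const_mul' _ _ (by norm_num)]
          exact lintegral_mono fun x => hE s x
      _ ≤ _ := by
          rw [lintegral_const_mul' _ _ (by norm_num)]
          refine (mul_le_mul' le_rfl h1).trans (le_of_eq ?_)
          rw [mul_add, ← lintegral_const_mul' _ _ (by norm_num), mul_assoc (26 : ℝ),
            ENNReal.ofReal_mul (p := 26) (by norm_num), ENNReal.ofReal_ofNat]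
          congr 1
          refine lintegral_congr fun s => ?_
          rw [ENNReal.ofReal_mul (by norm_num), ENNReal.ofReal_mul (by norm_num),
            ENNReal.ofReal_ofNat, ENNReal.ofReal_ofNat]
          ring
  · intro t ht
    refine (dist_le hF hG hc0 ha cF cG ht).trans (lintegral_mono_ae ?_)
    filter_upwards [ae_restrict_mem measurableSet_Ioc, (crit_tot hF hG cF cG).mono ht.2]
      with s hs hk
    rw [← lintegral_const_mul' _ _ ENNReal.ofReal_ne_top]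
    refine lintegral_mono_ae ?_
    filter_upwards [hk] with x hx
    have hs0 := hs.1
    have := ha0 s
    have := rr_nonneg x
    have h1 : m3 (tot F G s x) ≤ ENNReal.ofReal (2 * c / s + 4 * a s) := by
      refine hx.trans ?_
      rw [← ENNReal.ofReal_add (by positivity) (by positivity)]
      refine ENNReal.ofReal_le_ofReal ?_
      have : 2 * c / (s + rr x) ≤ 2 * c / s :=
        div_le_div_of_nonneg_left (by positivity) hs0 (by linarith)
      linarith
    calc _ ≤ _ := hE s x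
      _ ≤ 26 * (m2 (dif F G s x) * ENNReal.ofReal (2 * c / s + 4 * a s)) :=
          mul_le_mul' le_rfl (mul_le_mul' le_rfl h1)
      _ = _ := by
          rw [show 52 * c / s + 104 * a s = 26 * (2 * c / s + 4 * a s) by ring,
            ENNReal.ofReal_mul (p := 26) (by norm_num), ENNReal.ofReal_ofNat]
          ring

end

end Vale.Agent.N140
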