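import Vale.Agent.P140.H725.Main

/-!
# P140: estimates in the velocity variables, and two lemmas of real analysis
-/

open MeasureTheory Set Filter
open scoped ENNReal Topology NNReal

noncomputable section

namespace Vale.Agent.N140

open Vale.Agent.P140 Vale.Agent.P140.DL Vale.Agent.P140.NU

/-- collision integral of a function of the four velocities -/
def J (P : V × V × V × V → ℝ≥0∞) (v : V) : ℝ≥0∞ :=
  ∫⁻ w, ∫⁻ o, kk v w o * P (v, w, post v w o, postStar v w o) ∂surf

theorem meas_J_aux {β : Type*} [MeasurableSpace β] {π : β → V} (hπ : Measurable π)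
    {P : β × V × V × V × V → ℝ≥0∞} (hP : Measurable P) :
    Measurable fun z : (β × V) × S2 => kk (π z.1.1) z.1.2 z.2 *
      P (z.1.1, π z.1.1, z.1.2, post (π z.1.1) z.1.2 z.2, postStar (π z.1.1) z.1.2 z.2) := by
  have h0 : Measurable fun z : (β × V) × S2 => ((π z.1.1, z.1.2, z.2) : V × V × S2) :=
    (hπ.comp measurable_fst.fst).prodMk (measurable_fst.snd.prodMk measurable_snd)
  refine (measurable_kk.comp h0).mul (hP.comp ?_)
  exact measurable_fst.fst.prodMk ((hπ.comp measurable_fst.fst).prodMk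
    (measurable_fst.snd.prodMk ((measurable_post.comp h0).prodMk (measurable_postStar.comp h0))))

theorem meas_J {β : Type*} [MeasurableSpace β] {π : β → V} (hπ : Measurable π)
    {P : β × V × V × V × V → ℝ≥0∞} (hP : Measurable P) :
    Measurable fun q : β => J (fun z => P (q, z)) (π q) :=
  ((meas_J_aux hπ hP).lintegral_prod_right' (ν := surf)).lintegral_prod_right'

theorem meas_J1 {P : V × V × V × V → ℝ≥0∞} (hP : Measurable P) : Measurable (J P) :=
  meas_J (β := V) (π := id) measurable_id (P := fun z => P z.2) (hP.comp measurable_snd)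

theorem J_mono {P Q : V × V × V × V → ℝ≥0∞} {v : V}
    (h : ∀ w o, P (v, w, post v w o, postStar v w o) ≤ Q (v, w, post v w o, postStar v w o)) :
    J P v ≤ J Q v :=
  lintegral_mono fun w => lintegral_mono fun o => mul_le_mul' le_rfl (h w o)

theorem J_add {P Q : V × V × V × V → ℝ≥0∞} (hP : Measurable P) (v : V) :
    J (fun z => P z + Q z) v = J P v + J Q v := by
  have h1 := meas_J_aux (β := Unit) (π := fun _ => v) measurable_const (P := fun z => P z.2)
    (hP.comp measurable_snd)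
  have h2 : Measurable fun z : V × S2 => kk v z.1 z.2 * P (v, z.1, post v z.1 z.2,
      postStar v z.1 z.2) := h1.comp (f := fun z : V × S2 => (((), z.1), z.2)) (by fun_prop)
  unfold J
  rw [← lintegral_add_left (h2.lintegral_prod_right' (ν := surf))]
  refine lintegral_congr fun w => ?_
  have h3 : Measurable fun o : S2 => kk v w o * P (v, w, post v w o, postStar v w o) :=
    h2.comp (f := fun o : S2 => (w, o)) measurable_prodMk_left
  refine Eq.trans ?_ (lintegral_add_left h3 _)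
  refine lintegral_congr fun o => ?_
  simp only [mul_add]

theorem mul_J {P : V × V × V × V → ℝ≥0∞} {c : V → ℝ≥0∞} {v : V} (hc : c v ≠ ⊤) :
    c v * J P v = J (fun z => c z.1 * P z) v := by
  unfold J
  rw [← lintegral_const_mul' _ _ hc]
  refine lintegral_congr fun w => ?_
  rw [← lintegral_const_mul' _ _ hc]
  refine lintegral_congr fun o => ?_
  ring

theorem two_J {P : V × V × V × V → ℝ≥0∞} (v : V) : 2 * J P v = J (fun z => 2 * P z) v :=
  mul_J (c := fun _ => 2) (by norm_num)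

theorem lint_J_post {P : V × V × V × V → ℝ≥0∞} (hP : Measurable P) :
    ∫⁻ v, J P v = ∫⁻ v, J (fun z => P (z.2.2.1, z.2.2.2, z.1, z.2.1)) v :=
  lintegral_kk_post hP

theorem lint_J_swap {P : V × V × V × V → ℝ≥0∞} (hP : Measurable P) :
    ∫⁻ v, J P v = ∫⁻ v, J (fun z => P (z.2.1, z.1, z.2.2.2, z.2.2.1)) v := by
  have hm : Measurable fun q : V × V × S2 =>
      kk q.1 q.2.1 q.2.2 * P (q.1, q.2.1, post q.1 q.2.1 q.2.2, postStar q.1 q.2.1 q.2.2) := by
    apply measurable_kk.mul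
    apply hP.comp
    exact measurable_fst.prodMk ((measurable_fst.comp measurable_snd).prodMk
      (measurable_post.prodMk measurable_postStar))
  refine (lintegral_swap hm).symm.trans ?_
  refine lintegral_congr fun v => lintegral_congr fun w => lintegral_congr fun o => ?_
  have e1 : kk w v o = kk v w o := by
    unfold kk
    rw [relA_swap, abs_neg]
  simp only
  rw [e1, post_swap v w o, ← post_swap w v o]

theorem gain_J {f : V → ℝ} (v : V) :
    gain f v = J (fun z => ENNReal.ofReal (f z.2.2.1 * f z.2.2.2)) v := by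
  unfold gain J kk
  refine lintegral_congr fun w => lintegral_congr fun o => ?_
  rw [ENNReal.ofReal_mul (abs_nonneg _)]

theorem loss_J {f : V → ℝ} (v : V) :
    loss f v = J (fun z => ENNReal.ofReal (f z.1 * f z.2.1)) v := by
  unfold loss J kk
  refine lintegral_congr fun w => lintegral_congr fun o => ?_
  rw [ENNReal.ofReal_mul (abs_nonneg _)]

/-- the majorant of the difference of the gain terms -/
def PA (h S : V → ℝ) (z : V × V × V × V) : ℝ≥0∞ :=
  ENNReal.ofReal (h z.2.2.1 * S z.2.2.2) + ENNReal.ofReal (S z.2.2.1 * h z.2.2.2)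

/-- the good part of the difference of the loss terms -/
def PB (h S : V → ℝ) (z : V × V × V × V) : ℝ≥0∞ := ENNReal.ofReal (h z.1 * S z.2.1)

/-- the pointwise inequality -/
theorem point {f g h S : V → ℝ} (mf : Measurable f) (mg : Measurable g) (mh : Measurable h)
    (mS : Measurable S) (f0 : ∀ u, 0 ≤ f u)
    (g0 : ∀ u, 0 ≤ g u) (hh : ∀ u, h u = |f u - g u|) (hS : ∀ u, S u = f u + g u) {v : V}
    (hv : g v ≤ f v) : 2 * gain f v + 2 * loss g v + J (PB h S) v ≤
      2 * gain g v + 2 * loss f v + (J (PA h S) v + J (PB S h) v) := by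
  have S0 : ∀ u, 0 ≤ S u := fun u => by rw [hS]; exact add_nonneg (f0 u) (g0 u)
  have h0 : ∀ u, 0 ≤ h u := fun u => by rw [hh]; exact abs_nonneg _
  rw [gain_J, gain_J, loss_J, loss_J, two_J, two_J, two_J, two_J, ← J_add, ← J_add, ← J_add,
    ← J_add, ← J_add]
  · refine J_mono fun w o => ?_
    simp only [PA, PB]
    set a := post v w o
    set b := postStar v w o
    have e2 : ∀ x : ℝ, (2 : ℝ≥0∞) * ENNReal.ofReal x = ENNReal.ofReal (2 * x) := fun x => by
      rw [ENNReal.ofReal_mul (by norm_num)]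
      norm_num
    have := f0 a; have := f0 b; have := g0 a; have := g0 b; have := f0 v; have := f0 w
    have := g0 v; have := g0 w; have := S0 a; have := S0 b; have := S0 v; have := S0 w
    have := h0 a; have := h0 b; have := h0 v; have := h0 w
    rw [e2, e2, e2, e2, ← ENNReal.ofReal_add (by positivity) (by positivity),
      ← ENNReal.ofReal_add (by positivity) (by positivity),
      ← ENNReal.ofReal_add (by positivity) (by positivity),
      ← ENNReal.ofReal_add (by positivity) (by positivity),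
      ← ENNReal.ofReal_add (by positivity) (by positivity),
      ← ENNReal.ofReal_add (by positivity) (by positivity)]
    apply ENNReal.ofReal_le_ofReal
    have k1 : (f a - g a) * S b ≤ h a * S b := by
      rw [hh a]
      exact mul_le_mul_of_nonneg_right (le_abs_self _) (S0 b)
    have k2 : S a * (f b - g b) ≤ S a * h b := by
      rw [hh b]
      exact mul_le_mul_of_nonneg_left (le_abs_self _) (S0 a)
    have k3 : S v * (g w - f w) ≤ S v * h w := by
      rw [hh w, abs_sub_comm]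
      exact mul_le_mul_of_nonneg_left (le_abs_self _) (S0 v)
    have k4 : h v = f v - g v := by rw [hh, abs_of_nonneg (by linarith)]
    rw [k4]
    rw [hS b] at k1
    rw [hS a] at k2
    rw [hS v] at k3
    rw [hS a, hS b, hS v, hS w]
    nlinarith only [k1, k2, k3]
  all_goals first | (unfold PA; fun_prop) | fun_prop

/-- the remaining term -/
def PE (h S : V → ℝ) (z : V × V × V × V) : ℝ≥0∞ := psi2 z.2.1 * ENNReal.ofReal (h z.1 * S z.2.1)

theorem psi2_post (v w : V) (o : S2) :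
    psi2 (post v w o) + psi2 (postStar v w o) = psi2 v + psi2 w := by
  unfold psi2
  rw [← ENNReal.ofReal_add (by positivity) (by positivity),
    ← ENNReal.ofReal_add (by positivity) (by positivity)]
  congr 1
  linarith [energy_post v w o]

/-- the weak form -/
theorem weak_est {h S : V → ℝ} (mh : Measurable h) (mS : Measurable S) :
    ∫⁻ v, psi2 v * (J (PA h S) v + J (PB S h) v) ≤
      (∫⁻ v, psi2 v * J (PB h S) v) + 2 * ∫⁻ v, J (PE h S) v := by
  have mp := measurable_psi2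
  have mA : Measurable (PA h S) := by unfold PA; fun_prop
  have e1 : ∫⁻ v, psi2 v * (J (PA h S) v + J (PB S h) v) =
      (∫⁻ v, J (fun z => psi2 z.1 * PA h S z) v) + ∫⁻ v, J (fun z => psi2 z.1 * PB S h z) v := by
    rw [← lintegral_add_left (meas_J1 (by fun_prop))]
    refine lintegral_congr fun v => ?_
    rw [mul_add, mul_J (psi2_ne_top v), mul_J (psi2_ne_top v)]
  have e2 : ∫⁻ v, J (fun z => psi2 z.1 * PB S h z) v = ∫⁻ v, J (PE h S) v := by
    rw [lint_J_swap (by unfold PB; fun_prop)]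
    refine lintegral_congr fun v => ?_
    congr 1
    funext z
    simp only [PB, PE, mul_comm (S _)]
  have e3 : ∫⁻ v, J (fun z => psi2 z.1 * PA h S z) v =
      (∫⁻ v, J (fun z => psi2 z.2.2.1 * ENNReal.ofReal (h z.1 * S z.2.1)) v) +
        ∫⁻ v, J (fun z => psi2 z.2.2.1 * ENNReal.ofReal (S z.1 * h z.2.1)) v := by
    rw [lint_J_post (by fun_prop), ← lintegral_add_left (meas_J1 (by fun_prop))]
    refine lintegral_congr fun v => ?_
    rw [← J_add (by fun_prop)]
    congr 1
    funext z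
    simp only [PA, mul_add]
  have e4 : ∫⁻ v, J (fun z => psi2 z.2.2.1 * ENNReal.ofReal (S z.1 * h z.2.1)) v =
      ∫⁻ v, J (fun z => psi2 z.2.2.2 * ENNReal.ofReal (h z.1 * S z.2.1)) v := by
    rw [lint_J_swap (by fun_prop)]
    refine lintegral_congr fun v => ?_
    congr 1
    funext z
    simp only [mul_comm (S _)]
  have e5 : (∫⁻ v, J (fun z => psi2 z.2.2.1 * ENNReal.ofReal (h z.1 * S z.2.1)) v) +
      ∫⁻ v, J (fun z => psi2 z.2.2.2 * ENNReal.ofReal (h z.1 * S z.2.1)) v ≤
      (∫⁻ v, psi2 v * J (PB h S) v) + ∫⁻ v, J (PE h S) v := by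
    rw [← lintegral_add_left (meas_J1 (by fun_prop)), ← lintegral_add_right _
      (meas_J1 (by unfold PE; fun_prop))]
    refine lintegral_mono fun v => ?_
    simp only
    rw [mul_J (psi2_ne_top v), ← J_add (by fun_prop), ← J_add (by unfold PB; fun_prop)]
    refine J_mono fun w o => le_of_eq ?_
    simp only [PB, PE]
    rw [← add_mul, ← add_mul, psi2_post]
  rw [e1, e2, e3, e4, two_mul, ← add_assoc]
  exact add_le_add e5 le_rfl

/-- the cubic moment -/
def m3 (f : V → ℝ) : ℝ≥0∞ := ∫⁻ v, ENNReal.ofReal ((1 + ‖v‖) ^ 3 * f v)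

/-- the moment of order two -/
def m2 (f : V → ℝ) : ℝ≥0∞ := ∫⁻ v, psi2 v * ENNReal.ofReal (f v)

theorem le_m3 {f : V → ℝ} (_f0 : ∀ u, 0 ≤ f u) {a : V → ℝ≥0∞}
    (ha : ∀ v, a v ≤ ENNReal.ofReal ((1 + ‖v‖) ^ 3)) :
    ∫⁻ v, a v * ENNReal.ofReal (f v) ≤ m3 f := by
  refine lintegral_mono fun v => ?_
  simp only
  rw [ENNReal.ofReal_mul (by positivity)]
  exact mul_le_mul' (ha v) le_rfl

theorem psi2_le (v : V) : psi2 v ≤ ENNReal.ofReal ((1 + ‖v‖) ^ 3) := by
  apply ENNReal.ofReal_le_ofReal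
  have := norm_nonneg v
  nlinarith [pow_nonneg this 3]

theorem norm_psi2_le (v : V) :
    ENNReal.ofReal ‖v‖ * psi2 v ≤ ENNReal.ofReal ((1 + ‖v‖) ^ 3) := by
  unfold psi2
  rw [← ENNReal.ofReal_mul (norm_nonneg v)]
  apply ENNReal.ofReal_le_ofReal
  have := norm_nonneg v
  nlinarith [sq_nonneg ‖v‖]

theorem m2_le_m3 {f : V → ℝ} (f0 : ∀ u, 0 ≤ f u) : m2 f ≤ m3 f := le_m3 f0 psi2_le

theorem m3_mono {f g : V → ℝ} (h : ∀ u, f u ≤ g u) : m3 f ≤ m3 g :=
  lintegral_mono fun v => ENNReal.ofReal_le_ofReal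
    (mul_le_mul_of_nonneg_left (h v) (by positivity))

theorem m3_add {f g : V → ℝ} (mf : Measurable f) (f0 : ∀ u, 0 ≤ f u) (g0 : ∀ u, 0 ≤ g u) :
    m3 (fun u => f u + g u) = m3 f + m3 g := by
  unfold m3
  rw [← lintegral_add_left (by fun_prop)]
  refine lintegral_congr fun v => ?_
  have := f0 v
  have := g0 v
  rw [mul_add, ENNReal.ofReal_add (by positivity) (by positivity)]

theorem m2_mono {f g : V → ℝ} (h : ∀ u, f u ≤ g u) : m2 f ≤ m2 g :=
  lintegral_mono fun v => mul_le_mul' le_rfl (ENNReal.ofReal_le_ofReal (h v))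

theorem m2_add {f g : V → ℝ} (mf : Measurable f) (f0 : ∀ u, 0 ≤ f u) (g0 : ∀ u, 0 ≤ g u) :
    m2 (fun u => f u + g u) = m2 f + m2 g := by
  have mp := measurable_psi2
  unfold m2
  rw [← lintegral_add_left (by fun_prop)]
  refine lintegral_congr fun v => ?_
  rw [ENNReal.ofReal_add (f0 v) (g0 v), mul_add]

theorem surf_le : surf univ ≤ 13 := by
  unfold surf
  rw [Measure.toSphere_apply_univ, EuclideanSpace.volume_ball_fin_three]
  have : ((Module.finrank ℝ V : ℕ) : ℝ≥0∞) = ENNReal.ofReal 3 := by simp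
  rw [this, ENNReal.ofReal_one, one_pow, one_mul, ← ENNReal.ofReal_mul (by norm_num),
    show (13 : ℝ≥0∞) = ENNReal.ofReal 13 by norm_num]
  apply ENNReal.ofReal_le_ofReal
  linarith [Real.pi_lt_d2]

/-- the bound of the remaining term -/
theorem PE_le {h S : V → ℝ} (mh : Measurable h) (mS : Measurable S) (h0 : ∀ u, 0 ≤ h u)
    (S0 : ∀ u, 0 ≤ S u) : ∫⁻ v, J (PE h S) v ≤ 26 * (m2 h * m3 S) := by
  have mp := measurable_psi2
  have e : ∫⁻ v, J (PE h S) v = ∫⁻ v, ∫⁻ w, ∫⁻ o, kk v w o *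
      (ENNReal.ofReal (h v) * (psi2 w * ENNReal.ofReal (S w))) ∂surf := by
    refine lintegral_congr fun v => lintegral_congr fun w => lintegral_congr fun o => ?_
    simp only [PE]
    rw [ENNReal.ofReal_mul (h0 v)]
    ring
  rw [e]
  refine (triple_kk_le (a := fun v => ENNReal.ofReal (h v))
    (b := fun w => psi2 w * ENNReal.ofReal (S w)) (by fun_prop) (by fun_prop)).trans ?_
  have k1 : ∫⁻ v, ENNReal.ofReal ‖v‖ * ENNReal.ofReal (h v) ≤ m2 h :=
    lintegral_mono fun v => mul_le_mul' (norm_le_psi2 v) le_rfl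
  have k2 : ∫⁻ v, ENNReal.ofReal (h v) ≤ m2 h := by
    refine lintegral_mono fun v => ?_
    have : (1 : ℝ≥0∞) ≤ psi2 v := psi0_le_psi2 v
    exact le_mul_of_one_le_left' this
  have k3 : ∫⁻ w, psi2 w * ENNReal.ofReal (S w) ≤ m3 S := le_m3 S0 psi2_le
  have k4 : ∫⁻ w, ENNReal.ofReal ‖w‖ * (psi2 w * ENNReal.ofReal (S w)) ≤ m3 S := by
    simp only [← mul_assoc]
    exact le_m3 S0 norm_psi2_le
  calc _ ≤ 13 * (m2 h * m3 S + m2 h * m3 S) :=
        mul_le_mul' surf_le (add_le_add (mul_le_mul' k1 k3) (mul_le_mul' k2 k4))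
    _ = _ := by ring

theorem PB_le {h S : V → ℝ} (mh : Measurable h) (mS : Measurable S) (h0 : ∀ u, 0 ≤ h u)
    (S0 : ∀ u, 0 ≤ S u) : ∫⁻ v, psi2 v * J (PB h S) v ≤ 26 * (m2 S * m3 h) := by
  have mp := measurable_psi2
  refine le_trans (le_of_eq ?_) (PE_le mS mh S0 h0)
  rw [lint_J_swap (by unfold PE; fun_prop)]
  refine lintegral_congr fun v => ?_
  rw [mul_J (psi2_ne_top v)]
  congr 1
  funext z
  simp only [PB, PE, mul_comm (S _)]

theorem lint_loss_le {f : V → ℝ} (mf : Measurable f) (f0 : ∀ u, 0 ≤ f u) :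
    ∫⁻ v, loss f v ≤ 26 * (m2 f * m3 f) := by
  refine le_trans ?_ (PB_le mf mf f0 f0)
  refine lintegral_mono fun v => ?_
  have : (1 : ℝ≥0∞) ≤ psi2 v := psi0_le_psi2 v
  rw [loss_J]
  exact le_mul_of_one_le_left' this

theorem lint_gain_eq {f : V → ℝ} (mf : Measurable f) : ∫⁻ v, gain f v = ∫⁻ v, loss f v := by
  simp only [gain_J, loss_J]
  exact lint_J_post (by fun_prop)

/-- the inequality along a characteristic -/
theorem line_est {gF lF gG lG B U : ℝ → ℝ≥0∞} {f g : ℝ → ℝ} {c t : ℝ} (ht : 0 ≤ t)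
    (m1 : Measurable gF) (m2 : Measurable lF) (m3 : Measurable gG) (m4 : Measurable lG)
    (mB : Measurable B) (mU : Measurable U)
    (i1 : ∫⁻ s in Ioc 0 t, gF s < ⊤) (i2 : ∫⁻ s in Ioc 0 t, lF s < ⊤)
    (i3 : ∫⁻ s in Ioc 0 t, gG s < ⊤) (i4 : ∫⁻ s in Ioc 0 t, lG s < ⊤)
    (iB : ∫⁻ s in Ioc 0 t, B s < ⊤)
    (hf : ∀ s ∈ Icc 0 t, f s = c + ∫ r in Ioc 0 s, ((gF r).toReal - (lF r).toReal))
    (hg : ∀ s ∈ Icc 0 t, g s = c + ∫ r in Ioc 0 s, ((gG r).toReal - (lG r).toReal))
    (h12 : ∀ᵐ s ∂volume.restrict (Ioc 0 t),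
      (g s ≤ f s → 2 * gF s + 2 * lG s + B s ≤ 2 * gG s + 2 * lF s + U s) ∧
      (f s ≤ g s → 2 * gG s + 2 * lF s + B s ≤ 2 * gF s + 2 * lG s + U s)) :
    2 * ENNReal.ofReal |f t - g t| + ∫⁻ s in Ioc 0 t, B s ≤ ∫⁻ s in Ioc 0 t, U s := by
  rcases eq_top_or_lt_top (∫⁻ s in Ioc 0 t, U s) with iU | iU
  · rw [iU]
    exact le_top
  have j1 := integrable_toReal_of_lintegral_ne_top m1.aemeasurable i1.ne
  have j2 := integrable_toReal_of_lintegral_ne_top m2.aemeasurable i2.ne
  have j3 := integrable_toReal_of_lintegral_ne_top m3.aemeasurable i3.ne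
  have j4 := integrable_toReal_of_lintegral_ne_top m4.aemeasurable i4.ne
  have jB := integrable_toReal_of_lintegral_ne_top mB.aemeasurable iB.ne
  have jU := integrable_toReal_of_lintegral_ne_top mU.aemeasurable iU.ne
  set r : ℝ → ℝ := fun s => ((gF s).toReal - (lF s).toReal) - ((gG s).toReal - (lG s).toReal)
    with hr
  have jr : IntegrableOn r (Ioc 0 t) := (j1.sub j2).sub (j3.sub j4)
  have hri : IntervalIntegrable r volume 0 t := by
    rw [intervalIntegrable_iff_integrableOn_Ioc_of_le ht]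
    exact jr
  have hH : ∀ s ∈ Icc 0 t, 0 + ∫ u in (0 : ℝ)..s, r u = f s - g s := by
    intro s hs
    have hsub : Ioc 0 s ⊆ Ioc 0 t := Ioc_subset_Ioc_right hs.2
    have a1 : IntegrableOn (fun r => (gF r).toReal - (lF r).toReal) (Ioc 0 s) :=
      IntegrableOn.mono_set (j1.sub j2) hsub
    have a2 : IntegrableOn (fun r => (gG r).toReal - (lG r).toReal) (Ioc 0 s) :=
      IntegrableOn.mono_set (j3.sub j4) hsub
    rw [hf s hs, hg s hs, zero_add, intervalIntegral.integral_of_le hs.1, hr, integral_sub a1 a2]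
    ring
  have hac := ac_comp (φ := fun x : ℝ => |x|) (K := 1) (ac_primitive hri 0)
    (lipschitzWith_one_norm (E := ℝ)).lipschitzOnWith
  have hFTC := hac.integral_deriv_eq_sub
  rw [hH t ⟨ht, le_rfl⟩, intervalIntegral.integral_same, add_zero, abs_zero, sub_zero,
    intervalIntegral.integral_of_le ht] at hFTC
  have jd := hac.intervalIntegrable_deriv
  rw [intervalIntegrable_iff_integrableOn_Ioc_of_le ht] at jd
  have hle : ∫ s in Ioc 0 t, deriv (fun x => |0 + ∫ u in (0 : ℝ)..x, r u|) s ≤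
      ∫ s in Ioc 0 t, ((U s).toReal - (B s).toReal) / 2 := by
    refine integral_mono_ae jd ((jU.sub jB).div_const 2) ?_
    filter_upwards [ae_restrict_mem measurableSet_Ioc,
      ae_restrict_of_ae (ae_hasDerivAt_primitive hri 0), ae_lt_top m1 i1.ne, ae_lt_top m2 i2.ne,
      ae_lt_top m3 i3.ne, ae_lt_top m4 i4.ne, ae_lt_top mB iB.ne, ae_lt_top mU iU.ne, h12]
      with s hs hd a1 a2 a3 a4 aB aU ⟨h1, h2⟩
    have hs' : s ∈ Icc 0 t := Ioc_subset_Icc_self hs
    have hd' := hd (by rw [uIcc_of_le ht]; exact hs')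
    have conv : ∀ {a b c d e k : ℝ≥0∞}, a < ⊤ → b < ⊤ → c < ⊤ → d < ⊤ → e < ⊤ → k < ⊤ →
        2 * a + 2 * b + c ≤ 2 * d + 2 * e + k →
        2 * a.toReal + 2 * b.toReal + c.toReal ≤ 2 * d.toReal + 2 * e.toReal + k.toReal := by
      intro a b c d e k ha hb hc hd he hk h
      lift a to ℝ≥0 using ha.ne
      lift b to ℝ≥0 using hb.ne
      lift c to ℝ≥0 using hc.ne
      lift d to ℝ≥0 using hd.ne
      lift e to ℝ≥0 using he.ne
      lift k to ℝ≥0 using hk.ne
      simp only [ENNReal.coe_toReal]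
      exact_mod_cast h
    rcases lt_trichotomy (g s) (f s) with hlt | heq | hlt
    · have k := conv a1 a4 aB a3 a2 aU (h1 hlt.le)
      have hp : 0 < 0 + ∫ u in (0 : ℝ)..s, r u := by rw [hH s hs']; linarith
      have hd2 := (hasDerivAt_abs_pos hp).comp s hd'
      have e : deriv (fun x => |0 + ∫ u in (0 : ℝ)..x, r u|) s = 1 * r s := hd2.deriv
      rw [e, hr]
      simp only
      linarith
    · have k := conv a1 a4 aB a3 a2 aU (h1 heq.le)
      have k' := conv a3 a2 aB a1 a4 aU (h2 heq.ge)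
      have hmin : IsLocalMin (fun x => |0 + ∫ u in (0 : ℝ)..x, r u|) s := by
        refine Eventually.of_forall fun x => ?_
        simp only
        rw [hH s hs', heq, sub_self, abs_zero]
        exact abs_nonneg _
      rw [hmin.deriv_eq_zero]
      linarith
    · have k' := conv a3 a2 aB a1 a4 aU (h2 hlt.le)
      have hp : 0 + ∫ u in (0 : ℝ)..s, r u < 0 := by rw [hH s hs']; linarith
      have hd2 := (hasDerivAt_abs_neg hp).comp s hd'
      have e : deriv (fun x => |0 + ∫ u in (0 : ℝ)..x, r u|) s = -1 * r s := hd2.deriv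
      rw [e, hr]
      simp only
      linarith
  rw [hFTC, integral_div, integral_sub jU jB, integral_toReal mU.aemeasurable (ae_lt_top mU iU.ne),
    integral_toReal mB.aemeasurable (ae_lt_top mB iB.ne)] at hle
  rw [← ENNReal.ofReal_toReal iB.ne, ← ENNReal.ofReal_toReal iU.ne,
    show (2 : ℝ≥0∞) = ENNReal.ofReal 2 by norm_num, ← ENNReal.ofReal_mul (by norm_num),
    ← ENNReal.ofReal_add (by positivity) ENNReal.toReal_nonneg]
  apply ENNReal.ofReal_le_ofReal
  linarith

theorem lint_inv_sqrt {t : ℝ} (ht : 0 ≤ t) :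
    ∫⁻ s in Ioc 0 t, ENNReal.ofReal (1 / √s) = ENNReal.ofReal (2 * √t) := by
  have h1 : IntervalIntegrable (fun s : ℝ => s ^ (-(1 / 2) : ℝ)) volume 0 t :=
    intervalIntegral.intervalIntegrable_rpow' (by norm_num)
  have h2 := integral_rpow (a := 0) (b := t) (r := -(1 / 2)) (Or.inl (by norm_num))
  rw [intervalIntegrable_iff_integrableOn_Ioc_of_le ht] at h1
  rw [intervalIntegral.integral_of_le ht] at h2
  have h3 : ∫⁻ s in Ioc 0 t, ENNReal.ofReal (1 / √s) =
      ∫⁻ s in Ioc 0 t, ENNReal.ofReal (s ^ (-(1 / 2) : ℝ)) := by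
    refine setLIntegral_congr_fun measurableSet_Ioc fun s hs => ?_
    rw [Real.rpow_neg hs.1.le, Real.sqrt_eq_rpow, one_div]
  rw [h3, ← ofReal_integral_eq_lintegral_ofReal h1, h2]
  · congr 1
    rw [Real.zero_rpow (by norm_num), Real.sqrt_eq_rpow]
    norm_num
    ring
  · filter_upwards [ae_restrict_mem measurableSet_Ioc] with s hs
    exact Real.rpow_nonneg hs.1.le _

/-- the exponential of the primitive -/
def ex (b : ℝ → ℝ) (s : ℝ) : ℝ := Real.exp (0 + ∫ r in (0 : ℝ)..s, b r)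

theorem ex_pos (b : ℝ → ℝ) (s : ℝ) : 0 < ex b s := Real.exp_pos _

theorem ex_mono {b : ℝ → ℝ} (hb0 : ∀ s, 0 ≤ b s) {s t : ℝ} (hb : IntegrableOn b (Ioc 0 t))
    (hs : s ∈ Icc 0 t) : ex b s ≤ ex b t := by
  refine Real.exp_le_exp.2 (add_le_add le_rfl (intervalIntegral.integral_mono_interval le_rfl hs.1
    hs.2 (Eventually.of_forall hb0) ?_))
  rwa [intervalIntegrable_iff_integrableOn_Ioc_of_le (hs.1.trans hs.2)]

theorem one_le_ex {b : ℝ → ℝ} (hb0 : ∀ s, 0 ≤ b s) {t : ℝ} (ht : 0 ≤ t) : 1 ≤ ex b t := by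
  refine Real.one_le_exp ?_
  rw [zero_add]
  exact intervalIntegral.integral_nonneg ht fun s _ => hb0 s

theorem lint_ex {b : ℝ → ℝ} (hb0 : ∀ s, 0 ≤ b s) {t : ℝ} (ht : 0 ≤ t)
    (hb : IntegrableOn b (Ioc 0 t)) :
    ∫⁻ s in Ioc 0 t, ENNReal.ofReal (b s * ex b s) ≤ ENNReal.ofReal (ex b t) := by
  have hri : IntervalIntegrable b volume 0 t := by
    rwa [intervalIntegrable_iff_integrableOn_Ioc_of_le ht]
  have h0 := ac_primitive hri 0
  obtain ⟨K, hK⟩ := (Real.contDiff_exp (n := 1)).locallyLipschitz.locallyLipschitzOn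
    |>.exists_lipschitzOnWith_of_compact (isCompact_uIcc.image_of_continuousOn h0.continuousOn)
  have hac := ac_comp h0 hK
  have hFTC := hac.integral_deriv_eq_sub
  have jd := hac.intervalIntegrable_deriv
  rw [intervalIntegrable_iff_integrableOn_Ioc_of_le ht] at jd
  rw [intervalIntegral.integral_of_le ht] at hFTC
  have e : (deriv fun x => Real.exp (0 + ∫ r in (0 : ℝ)..x, b r)) =ᵐ[volume.restrict (Ioc 0 t)]
      fun s => b s * ex b s := by
    filter_upwards [ae_restrict_mem measurableSet_Ioc,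
      ae_restrict_of_ae (ae_hasDerivAt_primitive hri 0)] with s hs hd
    rw [(hd (by rw [uIcc_of_le ht]; exact Ioc_subset_Icc_self hs)).exp.deriv, mul_comm]
    rfl
  rw [← ofReal_integral_eq_lintegral_ofReal (jd.congr e)
    (Eventually.of_forall fun s => mul_nonneg (hb0 s) (ex_pos b s).le), ← integral_congr_ae e, hFTC]
  exact ENNReal.ofReal_le_ofReal (sub_le_self _ (Real.exp_pos _).le)

theorem lim_le {x : ℝ≥0∞} {u v w θ : ℝ} (h0 : 0 ≤ θ) (h1 : θ < 1)
    (h : ∀ n : ℕ, x ≤ ENNReal.ofReal ((u + θ ^ n * v) * w)) : x ≤ ENNReal.ofReal (u * w) := by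
  have hlim : Tendsto (fun n : ℕ => ENNReal.ofReal ((u + θ ^ n * v) * w)) atTop
      (𝓝 (ENNReal.ofReal ((u + 0 * v) * w))) :=
    ENNReal.tendsto_ofReal ((((tendsto_pow_atTop_nhds_zero_of_lt_one h0 h1).mul_const v).const_add
      u).mul_const w)
  rw [zero_mul, add_zero] at hlim
  exact ge_of_tendsto' hlim h

/-- a singular Gronwall lemma with a small constant -/
theorem gronwall {D : ℝ → ℝ≥0∞} {b : ℝ → ℝ} {A E k T : ℝ} (hA : 0 ≤ A) (hE : 0 ≤ E) (hk0 : 0 ≤ k)
    (hk : k < 1 / 2) (hb0 : ∀ s, 0 ≤ b s) (hb : IntegrableOn b (Ioc 0 T))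
    (hD : ∀ t ∈ Ioc 0 T, D t ≤ ENNReal.ofReal E)
    (h0 : ∀ t ∈ Ioc 0 T, D t ≤ ENNReal.ofReal (A * √t) +
      ∫⁻ s in Ioc 0 t, ENNReal.ofReal (b s) * D s)
    (h1 : ∀ t ∈ Ioc 0 T, D t ≤ ∫⁻ s in Ioc 0 t, ENNReal.ofReal (k / s + b s) * D s) :
    ∀ t ∈ Ioc 0 T, D t = 0 := by
  obtain ⟨η, hη0, hη1, hη2⟩ : ∃ η : ℝ, 0 < η ∧ η ≤ 1 / 2 ∧ 2 * k + η < 1 :=
    ⟨(1 - 2 * k) / 2, by linarith, by linarith, by linarith⟩
  have c0 : ∀ s, 0 ≤ b s / η := fun s => div_nonneg (hb0 s) hη0.le
  have ci : ∀ t ∈ Ioc 0 T, IntegrableOn (fun s => b s / η) (Ioc 0 t) := fun t ht =>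
    (hb.mono_set (Ioc_subset_Ioc_right ht.2)).div_const η
  set e := ex fun s => b s / η with he
  have e0 : ∀ s, 0 < e s := ex_pos _
  have hI : ∀ t ∈ Ioc 0 T, ∀ M : ℝ, 0 ≤ M →
      ∫⁻ s in Ioc 0 t, ENNReal.ofReal (b s * (M * e s)) ≤ ENNReal.ofReal (η * M * e t) := by
    intro t ht M hM
    have e1 : ∀ s, ENNReal.ofReal (b s * (M * e s)) =
        ENNReal.ofReal (η * M) * ENNReal.ofReal (b s / η * e s) := fun s => by
      rw [← ENNReal.ofReal_mul (by positivity)]
      congr 1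
      field_simp
    simp only [e1]
    rw [lintegral_const_mul' _ _ ENNReal.ofReal_ne_top, ENNReal.ofReal_mul (p := η * M)
      (by positivity)]
    exact mul_le_mul' le_rfl (lint_ex c0 ht.1.le (ci t ht))
  have key1 : ∀ n : ℕ, ∀ t ∈ Ioc 0 T,
      D t ≤ ENNReal.ofReal ((2 * A * √t + (1 / 2) ^ n * E) * e t) := by
    intro n
    induction n with
    | zero =>
      intro t ht
      refine (hD t ht).trans (ENNReal.ofReal_le_ofReal ?_)
      have h2 : 1 ≤ e t := one_le_ex c0 ht.1.le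
      have h3 : 0 ≤ 2 * A * √t := by positivity
      rw [pow_zero, one_mul]
      nlinarith only [h2, h3, hE]
    | succ n ih =>
      intro t ht
      have h2 : 1 ≤ e t := one_le_ex c0 ht.1.le
      have h3 : 0 ≤ A * √t := by positivity
      have h4 : 0 ≤ (1 / 2 : ℝ) ^ n * E := by positivity
      refine (h0 t ht).trans ((add_le_add le_rfl ((setLIntegral_mono' measurableSet_Ioc
        fun s hs => ?_).trans (hI t ht (2 * A * √t + (1 / 2) ^ n * E) (by positivity)))).trans ?_)
      · rw [ENNReal.ofReal_mul (hb0 s)]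
        refine mul_le_mul' le_rfl ((ih s ⟨hs.1, hs.2.trans ht.2⟩).trans
          (ENNReal.ofReal_le_ofReal ?_))
        have := e0 s
        have := Real.sqrt_le_sqrt hs.2
        gcongr
      · rw [← ENNReal.ofReal_add h3 (by positivity)]
        refine ENNReal.ofReal_le_ofReal ?_
        have h5 : η * (2 * A * √t + (1 / 2) ^ n * E) * e t ≤
            1 / 2 * (2 * A * √t + (1 / 2) ^ n * E) * e t := by gcongr
        rw [pow_succ]
        nlinarith only [h5, h2, h3]
  have key2 : ∀ n : ℕ, ∀ t ∈ Ioc 0 T,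
      D t ≤ ENNReal.ofReal ((0 + (2 * k + η) ^ n * (2 * A * √t)) * e t) := by
    intro n
    induction n with
    | zero =>
      intro t ht
      rw [zero_add, pow_zero, one_mul]
      exact lim_le (by norm_num) (by norm_num) fun n => key1 n t ht
    | succ n ih =>
      intro t ht
      have := e0 t
      refine (h1 t ht).trans ?_
      calc ∫⁻ s in Ioc 0 t, ENNReal.ofReal (k / s + b s) * D s
          ≤ ∫⁻ s in Ioc 0 t, (ENNReal.ofReal (k * (2 * k + η) ^ n * (2 * A) * e t) *
            ENNReal.ofReal (1 / √s) +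
            ENNReal.ofReal (b s * ((2 * k + η) ^ n * (2 * A * √t) * e s))) := by
            refine setLIntegral_mono' measurableSet_Ioc fun s hs => ?_
            have hs0 := hs.1
            have := e0 s
            have := hb0 s
            have h2 : 0 < √s := Real.sqrt_pos.2 hs0
            refine (mul_le_mul' le_rfl (ih s ⟨hs.1, hs.2.trans ht.2⟩)).trans ?_
            rw [← ENNReal.ofReal_mul (by positivity), ← ENNReal.ofReal_mul (by positivity),
              ← ENNReal.ofReal_add (by positivity) (by positivity), zero_add, add_mul]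
            refine ENNReal.ofReal_le_ofReal (add_le_add ?_ ?_)
            · have h3 : e s ≤ e t := ex_mono c0 (ci t ht) (Ioc_subset_Icc_self hs)
              calc _ = k * (2 * k + η) ^ n * (2 * A) * e s * (√s / s) := by ring
                _ ≤ _ := by
                  rw [Real.sqrt_div_self']
                  gcongr
            · have := Real.sqrt_le_sqrt hs.2
              gcongr
        _ ≤ _ := by
            rw [lintegral_add_left (by fun_prop), lintegral_const_mul' _ _ ENNReal.ofReal_ne_top,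
              lint_inv_sqrt ht.1.le, ← ENNReal.ofReal_mul (by positivity)]
            refine (add_le_add le_rfl (hI t ht _ (by positivity))).trans (le_of_eq ?_)
            rw [← ENNReal.ofReal_add (by positivity) (by positivity)]
            congr 1
            ring
  intro t ht
  have h2 := lim_le (by positivity) hη2 fun n => key2 n t ht
  rwa [zero_mul, ENNReal.ofReal_zero, nonpos_iff_eq_zero] at h2

theorem lint_rr32 : ∫⁻ x : T3, ENNReal.ofReal (1 / (rr x * √(rr x))) ≤ ENNReal.ofReal 64 := by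
  have hpt : ∀ x : T3, ENNReal.ofReal (1 / (rr x * √(rr x))) ≤
      ∑' k : ℕ, {x : T3 | rr x ≤ (1 / 4 : ℝ) ^ k}.indicator
        (fun _ => ENNReal.ofReal ((8 : ℝ) ^ (k + 1))) x := by
    intro x
    rcases (rr_nonneg x).eq_or_lt with h0 | h0
    · rw [← h0]
      simp
    · obtain ⟨k, hk1, hk2⟩ := exists_nat_pow_near_of_lt_one h0 (bt_rr_le x)
        (show (0 : ℝ) < 1 / 4 by norm_num) (show (1 / 4 : ℝ) < 1 by norm_num)
      refine le_trans ?_ (ENNReal.le_tsum k)
      rw [indicator_of_mem (show x ∈ {x : T3 | rr x ≤ (1 / 4 : ℝ) ^ k} from hk2)]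
      apply ENNReal.ofReal_le_ofReal
      have h1 : (1 / 2 : ℝ) ^ (k + 1) ≤ √(rr x) := by
        apply Real.le_sqrt_of_sq_le
        rw [← pow_mul, mul_comm, pow_mul]
        norm_num
        exact hk1.le
      rw [div_le_iff₀ (by positivity)]
      have e : (8 : ℝ) ^ (k + 1) * ((1 / 4 : ℝ) ^ (k + 1) * (1 / 2 : ℝ) ^ (k + 1)) = 1 := by
        rw [← mul_pow, ← mul_pow]
        norm_num
      calc (1 : ℝ) = (8 : ℝ) ^ (k + 1) * ((1 / 4 : ℝ) ^ (k + 1) * (1 / 2 : ℝ) ^ (k + 1)) := e.symm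
        _ ≤ _ := by gcongr
  calc ∫⁻ x : T3, ENNReal.ofReal (1 / (rr x * √(rr x)))
      ≤ ∫⁻ x : T3, ∑' k : ℕ, {x : T3 | rr x ≤ (1 / 4 : ℝ) ^ k}.indicator
        (fun _ => ENNReal.ofReal ((8 : ℝ) ^ (k + 1))) x := lintegral_mono hpt
    _ = ∑' k : ℕ, ∫⁻ x : T3, {x : T3 | rr x ≤ (1 / 4 : ℝ) ^ k}.indicator
        (fun _ => ENNReal.ofReal ((8 : ℝ) ^ (k + 1))) x :=
        lintegral_tsum fun k => (measurable_const.indicator (Med.measurableSet_tube _)).aemeasurable
    _ ≤ ∑' k : ℕ, ENNReal.ofReal (32 * (1 / 2 : ℝ) ^ k) := by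
        refine ENNReal.tsum_le_tsum fun k => ?_
        rw [lintegral_indicator (Med.measurableSet_tube _), setLIntegral_const]
        refine (mul_le_mul' le_rfl (Med.vol_tube (by positivity))).trans ?_
        rw [← ENNReal.ofReal_mul (by positivity)]
        apply ENNReal.ofReal_le_ofReal
        have e : (8 : ℝ) ^ k * ((1 / 4 : ℝ) ^ k) ^ 2 = (1 / 2 : ℝ) ^ k := by
          rw [← pow_mul, mul_comm k 2, pow_mul, ← mul_pow]
          norm_num
        calc (8 : ℝ) ^ (k + 1) * (4 * ((1 / 4 : ℝ) ^ k) ^ 2)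
            = 32 * ((8 : ℝ) ^ k * ((1 / 4 : ℝ) ^ k) ^ 2) := by ring
          _ ≤ _ := by rw [e]
    _ = ENNReal.ofReal 64 := by
        rw [← ENNReal.ofReal_tsum_of_nonneg (fun k => by positivity)
          ((summable_geometric_of_lt_one (by norm_num) (by norm_num)).mul_left 32),
          tsum_mul_left, tsum_geometric_of_lt_one (by norm_num) (by norm_num)]
        norm_num

/-- the square of the critical weight is integrable -/
theorem lint_crit {W : ℝ → T3 → ℝ≥0∞} {c t : ℝ} (ht : 0 ≤ t) (hc : 0 ≤ c)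
    (hW : ∀ s ∈ Ioc 0 t, ∀ᵐ x, W s x ≤
      ENNReal.ofReal (c / (s + rr x)) * ENNReal.ofReal (c / (s + rr x))) :
    ∫⁻ s in Ioc 0 t, ∫⁻ x, W s x ≤ ENNReal.ofReal (128 * c ^ 2 * √t) := by
  calc ∫⁻ s in Ioc 0 t, ∫⁻ x, W s x
      ≤ ∫⁻ s in Ioc 0 t, ENNReal.ofReal (64 * c ^ 2) * ENNReal.ofReal (1 / √s) := by
        refine setLIntegral_mono' measurableSet_Ioc fun s hs => ?_
        have hs0 := hs.1
        have h2 : 0 < √s := Real.sqrt_pos.2 hs0
        calc ∫⁻ x, W s x ≤ ∫⁻ x : T3, ENNReal.ofReal (c ^ 2 / √s) *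
              ENNReal.ofReal (1 / (rr x * √(rr x))) := by
              refine lintegral_mono_ae ?_
              filter_upwards [hW s hs, ae_rr_pos] with x hx hr
              refine hx.trans ?_
              rw [← ENNReal.ofReal_mul (by positivity), ← ENNReal.ofReal_mul (by positivity)]
              apply ENNReal.ofReal_le_ofReal
              have h3 : 0 < √(rr x) := Real.sqrt_pos.2 hr
              have h4 : √s * √(rr x) ≤ s + rr x := by
                nlinarith only [Real.mul_self_sqrt hs0.le, Real.mul_self_sqrt hr.le,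
                  sq_nonneg (√s - √(rr x)), mul_pos h2 h3]
              rw [div_mul_div_comm, div_mul_div_comm, mul_one, ← sq]
              refine div_le_div_of_nonneg_left (by positivity) (by positivity) ?_
              calc √s * (rr x * √(rr x)) = (√s * √(rr x)) * rr x := by ring
                _ ≤ (s + rr x) * (s + rr x) := by gcongr; linarith
          _ ≤ ENNReal.ofReal (c ^ 2 / √s) * ENNReal.ofReal 64 := by
              rw [lintegral_const_mul' _ _ ENNReal.ofReal_ne_top]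
              exact mul_le_mul' le_rfl lint_rr32
          _ = _ := by
              rw [← ENNReal.ofReal_mul (by positivity), ← ENNReal.ofReal_mul (by positivity)]
              congr 1
              ring
    _ = _ := by
        rw [lintegral_const_mul' _ _ ENNReal.ofReal_ne_top, lint_inv_sqrt ht,
          ← ENNReal.ofReal_mul (by positivity)]
        congr 1
        ring

theorem lint_pq {p q : ℝ → T3 → ℝ≥0∞} {a : ℝ → ℝ} {c t : ℝ} (ht : 0 ≤ t) (hc : 0 ≤ c)
    (hpq : ∀ s x, p s x ≤ q s x) (hq : ∀ᵐ s ∂volume.restrict (Ioc 0 t), ∀ᵐ x,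
      q s x ≤ ENNReal.ofReal (a s) + ENNReal.ofReal (c / (s + rr x))) :
    ∫⁻ s in Ioc 0 t, ∫⁻ x, p s x * q s x ≤ ENNReal.ofReal (128 * (2 * c) ^ 2 * √t) +
      ∫⁻ s in Ioc 0 t, 2 * ENNReal.ofReal (a s) * ∫⁻ x, p s x := by
  have mr := measurable_rr
  have mW : Measurable fun y : ℝ × T3 => ENNReal.ofReal (2 * c / (y.1 + rr y.2)) *
      ENNReal.ofReal (2 * c / (y.1 + rr y.2)) := by fun_prop
  refine le_trans ?_ (add_le_add (lint_crit (W := fun s x => ENNReal.ofReal (2 * c / (s + rr x)) *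
    ENNReal.ofReal (2 * c / (s + rr x))) ht (by positivity)
    fun s _ => Eventually.of_forall fun x => le_rfl) le_rfl)
  rw [← lintegral_add_left mW.lintegral_prod_right']
  refine lintegral_mono_ae ?_
  filter_upwards [hq] with s hs
  rw [← lintegral_const_mul' _ _ (ENNReal.mul_ne_top (by norm_num) ENNReal.ofReal_ne_top),
    ← lintegral_add_left (by fun_prop)]
  refine lintegral_mono_ae ?_
  filter_upwards [hs] with x hx
  have e : ENNReal.ofReal (2 * c / (s + rr x)) = 2 * ENNReal.ofReal (c / (s + rr x)) := by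
    rw [mul_div_assoc, ENNReal.ofReal_mul (by norm_num)]
    norm_num
  simp only [e]
  rcases le_total (ENNReal.ofReal (a s)) (ENNReal.ofReal (c / (s + rr x))) with h | h
  · have h2 : q s x ≤ 2 * ENNReal.ofReal (c / (s + rr x)) := by
      rw [two_mul]
      exact hx.trans (add_le_add h le_rfl)
    exact (mul_le_mul' ((hpq s x).trans h2) h2).trans le_self_add
  · have h2 : q s x ≤ 2 * ENNReal.ofReal (a s) := by
      rw [two_mul]
      exact hx.trans (add_le_add le_rfl h)
    rw [mul_comm (p s x)]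
    exact (mul_le_mul' h2 le_rfl).trans le_add_self

theorem lint_pq_fin {p q : ℝ → T3 → ℝ≥0∞} {a : ℝ → ℝ} {c t E : ℝ} (ht : 0 ≤ t) (hc : 0 ≤ c)
    (hpq : ∀ s x, p s x ≤ q s x) (hq : ∀ᵐ s ∂volume.restrict (Ioc 0 t), ∀ᵐ x,
      q s x ≤ ENNReal.ofReal (a s) + ENNReal.ofReal (c / (s + rr x)))
    (ha : IntegrableOn a (Ioc 0 t)) (hE : ∀ s ∈ Ioc 0 t, ∫⁻ x, p s x ≤ ENNReal.ofReal E) :
    ∫⁻ s in Ioc 0 t, 26 * ∫⁻ x, p s x * q s x < ⊤ := by
  rw [lintegral_const_mul' _ _ (by norm_num)]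
  refine ENNReal.mul_lt_top (by norm_num) ((lint_pq ht hc hpq hq).trans_lt
    (ENNReal.add_lt_top.2 ⟨ENNReal.ofReal_lt_top, ?_⟩))
  calc _ ≤ ∫⁻ s in Ioc 0 t, 2 * ENNReal.ofReal E * ENNReal.ofReal (a s) :=
        setLIntegral_mono' measurableSet_Ioc fun s hs =>
          (mul_le_mul' le_rfl (hE s hs)).trans (le_of_eq (mul_right_comm _ _ _))
    _ < ⊤ := by
        have h : 2 * ENNReal.ofReal E ≠ ⊤ := ENNReal.mul_ne_top (by norm_num) ENNReal.ofReal_ne_top
        rw [lintegral_const_mul' _ _ h]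
        exact ENNReal.mul_lt_top h.lt_top ha.lintegral_lt_top

end Vale.Agent.N140
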